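import Crest.Agent.X261.Har.Boch
import Crest.Agent.R273.GreenG_5
import Crest.Agent.X261.Har.Alb
import Crest.Agent.X261.End.U
import Crest.Agent.X261.Uen.Main

-- ▼ part X261/Har/HeA
section

/-!
# X261, HAR (helper94), file HeA: exact `(2,0)` forms and exact constant `(1,1)` forms

* `two_zero` : a holomorphic 2-form which is `∂`-exact vanishes;
* `one_one`  : if `Φᵀ T Φ̄ = ∂β - (∂β)ᴴ` and `Φ` is onto at one point, then `T = 0`.
-/

set_option autoImplicit false
set_option linter.unusedSectionVars false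

open Set Filter Topology Complex MeasureTheory
open scoped ContDiff Matrix ComplexConjugate ComplexOrder

namespace Crest.Agent.X261.Har

open Crest.Agent.R275 Crest.Agent.R275.Geo Crest.Agent.R275.Core144 Crest.Agent.R275.EDR890
open Crest.Agent.R275.SerG398 (dens)
open Crest.Agent.R275.OmT75 (dj dl)
open Crest.Agent.R273.Kah_333 Crest.Agent.R273.Vol_333 Crest.Agent.R273.Vm_333
open Crest.Agent.R273.StV_37 Crest.Agent.R273.Green_5
open Crest.Agent.R273.VolInv_5 Crest.Agent.R273.GreenM_5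

noncomputable section

/-! ### algebra -/

section alg

variable {n q : ℕ}

theorem hs2_nonneg {h k : Matrix (Fin n) (Fin n) ℂ} (hh : h.PosDef) (hk : k.PosDef)
    (Q : Matrix (Fin n) (Fin n) ℂ) :
    0 ≤ (h * Q * k * Qᴴ).trace ∧ ((h * Q * k * Qᴴ).trace = 0 → Q = 0) := by
  obtain ⟨B, hB⟩ := exists_sqrt hh.posSemidef
  obtain ⟨C, hC⟩ := exists_sqrt hk.posSemidef
  have e : (h * Q * k * Qᴴ).trace = ((C * Qᴴ * Bᴴ)ᴴ * (C * Qᴴ * Bᴴ)).trace := by
    rw [hB, hC]
    simp only [Matrix.conjTranspose_mul, Matrix.conjTranspose_conjTranspose]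
    rw [show Bᴴ * B * Q * (Cᴴ * C) * Qᴴ = Bᴴ * (B * Q * (Cᴴ * C) * Qᴴ) by
      simp only [Matrix.mul_assoc], Matrix.trace_mul_comm]
    simp only [Matrix.mul_assoc]
  rw [e]
  refine ⟨(Matrix.posSemidef_conjTranspose_mul_self _).trace_nonneg, fun h0 => ?_⟩
  have h1 := Matrix.trace_conjTranspose_mul_self_eq_zero_iff.1 h0
  have hd : ∀ {h B : Matrix (Fin n) (Fin n) ℂ}, h.PosDef → h = Bᴴ * B → IsUnit B.det := by
    intro h B hh hB
    refine isUnit_iff_ne_zero.2 fun hb => ?_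
    have := hh.det_pos.ne'
    rw [hB, Matrix.det_mul, hb, mul_zero] at this
    exact this rfl
  have hu := hd hk hC
  have hu' : IsUnit Bᴴ.det := by
    rw [Matrix.det_conjTranspose]
    exact (hd hh hB).star
  have h2 : Qᴴ = C⁻¹ * (C * Qᴴ * Bᴴ) * Bᴴ⁻¹ := by
    rw [show C⁻¹ * (C * Qᴴ * Bᴴ) * Bᴴ⁻¹ = (C⁻¹ * C) * Qᴴ * (Bᴴ * Bᴴ⁻¹) by
      simp only [Matrix.mul_assoc], Matrix.nonsing_inv_mul _ hu, Matrix.mul_nonsing_inv _ hu',
      Matrix.one_mul, Matrix.mul_one]
  rw [h1, Matrix.mul_zero, Matrix.zero_mul] at h2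
  exact Matrix.conjTranspose_eq_zero.1 h2

theorem eq_zero_of_trace_posDef {T : Matrix (Fin q) (Fin q) ℂ}
    (h : ∀ Y : Matrix (Fin q) (Fin q) ℂ, Y.PosDef → (Y * T).trace = 0) : T = 0 := by
  have h1 : ∀ W : Matrix (Fin q) (Fin q) ℂ, (W * T).trace + (Wᴴ * T).trace = 0 := by
    intro W
    have h2 := h _ (Matrix.PosDef.one.add_posSemidef
      (Matrix.posSemidef_conjTranspose_mul_self (1 + W)))
    have h3 := h _ (Matrix.PosDef.one.add_posSemidef
      (Matrix.posSemidef_conjTranspose_mul_self (1 - W)))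
    simp only [Matrix.conjTranspose_add, Matrix.conjTranspose_sub, Matrix.conjTranspose_one,
      Matrix.add_mul, Matrix.mul_add, Matrix.sub_mul, Matrix.mul_sub, Matrix.one_mul,
      Matrix.mul_one, Matrix.trace_add, Matrix.trace_sub] at h2 h3
    linear_combination (h2 - h3) / 2
  have h2 := h1 Tᴴ
  have h3 := h1 (I • Tᴴ)
  simp only [Matrix.conjTranspose_smul, Matrix.smul_mul, Matrix.trace_smul, smul_eq_mul,
    RCLike.star_def, Complex.conj_I] at h3
  apply Matrix.trace_conjTranspose_mul_self_eq_zero_iff.1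
  have h4 : (2 * I) * (Tᴴ * T).trace = 0 := by linear_combination I * h2 + h3
  exact (mul_eq_zero.1 h4).resolve_left (mul_ne_zero two_ne_zero I_ne_zero)

/-- pull-back of a constant `(1,1)` form -/
def pb (Φ : Matrix (Fin q) (Fin n) ℂ) (N : Matrix (Fin q) (Fin q) ℂ) : Matrix (Fin n) (Fin n) ℂ :=
  Φᵀ * N * Φ.map conj

/-- the Gram matrix of the rows of `Φ` -/
def gr (g : Matrix (Fin n) (Fin n) ℂ) (Φ : Matrix (Fin q) (Fin n) ℂ) : Matrix (Fin q) (Fin q) ℂ :=
  Φ.map conj * g⁻¹ * Φᵀ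

theorem pb_add (Φ : Matrix (Fin q) (Fin n) ℂ) (N N' : Matrix (Fin q) (Fin q) ℂ) :
    pb Φ (N + N') = pb Φ N + pb Φ N' := by
  unfold pb
  rw [Matrix.mul_add, Matrix.add_mul]

theorem pb_sub (Φ : Matrix (Fin q) (Fin n) ℂ) (N N' : Matrix (Fin q) (Fin q) ℂ) :
    pb Φ (N - N') = pb Φ N - pb Φ N' := by
  unfold pb
  rw [Matrix.mul_sub, Matrix.sub_mul]

theorem pb_smul (Φ : Matrix (Fin q) (Fin n) ℂ) (c : ℂ) (N : Matrix (Fin q) (Fin q) ℂ) :
    pb Φ (c • N) = c • pb Φ N := by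
  unfold pb
  rw [Matrix.mul_smul, Matrix.smul_mul]

theorem map_conj_eq (Φ : Matrix (Fin q) (Fin n) ℂ) : Φ.map conj = (Φᵀ)ᴴ := rfl

theorem pb_conjT (Φ : Matrix (Fin q) (Fin n) ℂ) (N : Matrix (Fin q) (Fin q) ℂ) :
    (pb Φ N)ᴴ = pb Φ Nᴴ := by
  unfold pb
  rw [map_conj_eq, Matrix.conjTranspose_mul, Matrix.conjTranspose_mul,
    Matrix.conjTranspose_conjTranspose, Matrix.mul_assoc]

theorem trace_pb (g : Matrix (Fin n) (Fin n) ℂ) (Φ : Matrix (Fin q) (Fin n) ℂ)
    (N : Matrix (Fin q) (Fin q) ℂ) : (g⁻¹ * pb Φ N).trace = (N * gr g Φ).trace := by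
  unfold pb gr
  rw [show g⁻¹ * (Φᵀ * N * Φ.map conj) = (g⁻¹ * Φᵀ) * (N * Φ.map conj) by
    simp only [Matrix.mul_assoc], Matrix.trace_mul_comm]
  simp only [Matrix.mul_assoc]

theorem det_pb {g : Matrix (Fin n) (Fin n) ℂ} (hg : g.det ≠ 0) (Φ : Matrix (Fin q) (Fin n) ℂ)
    (N : Matrix (Fin q) (Fin q) ℂ) : (g + pb Φ N).det = g.det * (1 + N * gr g Φ).det := by
  have h1 : g + pb Φ N = g * (1 + (g⁻¹ * Φᵀ) * (N * Φ.map conj)) := by
    rw [Matrix.mul_add, Matrix.mul_one, ← Matrix.mul_assoc g, ← Matrix.mul_assoc g,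
      Matrix.mul_nonsing_inv _ (isUnit_iff_ne_zero.2 hg), Matrix.one_mul, pb, Matrix.mul_assoc]
  rw [h1, Matrix.det_mul, Matrix.det_one_add_mul_comm]
  simp only [gr, Matrix.mul_assoc]

theorem adj_pb {g : Matrix (Fin n) (Fin n) ℂ} (hg : g.det ≠ 0) (Φ : Matrix (Fin q) (Fin n) ℂ)
    (N T : Matrix (Fin q) (Fin q) ℂ) : ((g + pb Φ N).adjugate * pb Φ T).trace =
      g.det * ((1 + N * gr g Φ).adjugate * (T * gr g Φ)).trace := by
  rw [← R273.GreenG_5.coeff_one_dp, ← R273.GreenG_5.coeff_one_dp, ← Polynomial.coeff_C_mul]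
  congr 1
  refine Polynomial.funext fun s => ?_
  rw [Polynomial.eval_mul, Polynomial.eval_C, eval_dp, eval_dp, add_assoc, ← pb_smul, ← pb_add,
    det_pb hg, Matrix.add_mul, Matrix.smul_mul, add_assoc]

end alg

variable {n q : ℕ} {M : Type} [TopologicalSpace M] {A : Atl n M}

theorem cf_of {S : A.ι → M → Matrix (Fin n) (Fin n) ℂ}
    (hs : ∀ i a b, A.SmAt i (fun x => S i x a b)) (ht : Tn A S)
    (hc : ∀ i, ∀ x ∈ (A.e i).source, ∀ a b c,
      dl A i c (fun y => S i y a b) x = dl A i a (fun y => S i y c b) x) : CF A S := by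
  refine ⟨hs, ht, fun i z hz a b c => ?_⟩
  rw [← dl_read (A := A) (fun y => S i y a b) i c hz, ← dl_read (A := A) (fun y => S i y c b) i a hz]
  exact hc i _ ((A.e i).map_target hz) a b c

theorem inv_tr (K : Kah A) {i j : A.ι} {x : M} (hx : x ∈ (A.e i).source ∩ (A.e j).source) :
    (Jm A i j x).map conj * (K.g i x)⁻¹ * (Jm A i j x)ᵀ = (K.g j x)⁻¹ := by
  have h0 : (Jm A i j x).map conj * (K.g i x).adjugate * (Jm A i j x)ᵀ =
      (1 * dens A i j x) • (K.g j x).adjugate := rf_adj (K_tn K) i j x hx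
  have h2 : (K.g i x).det = dens A i j x * (K.g j x).det := (K_tn K).det i j x hx
  rw [adj_eq (K_det_ne K hx.1), adj_eq (K_det_ne K hx.2), smul_smul, one_mul, ← h2,
    Matrix.mul_smul, Matrix.smul_mul] at h0
  exact smul_right_injective _ (K_det_ne K hx.1) h0

variable [T2Space M] [CompactSpace M] [Finite A.ι]

/-- **exact holomorphic 2-forms vanish** -/
theorem two_zero (P : Part A) (K : Kah A) {η : A.ι → M → Fin n → ℂ}
    {σ : A.ι → M → Matrix (Fin n) (Fin n) ℂ} (hs : ∀ i b, A.SmAt i (fun y => η i y b))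
    (hη : C10 A (fun _ _ _ => 1) η) (hσs : ∀ i a b, A.SmAt i (fun y => σ i y a b))
    (hσ : ∀ i, ∀ x ∈ (A.e i).source, σ i x = Tm A η i x - (Tm A η i x)ᵀ)
    (ht : ∀ i j, ∀ x ∈ (A.e i).source ∩ (A.e j).source,
      σ i x = (Jm A i j x)ᵀ * σ j x * Jm A i j x)
    (hh : ∀ i, ∀ x ∈ (A.e i).source, ∀ a b c, dl A i c (fun y => conj (σ i y a b)) x = 0)
    (i : A.ι) (x : M) (hx : x ∈ (A.e i).source) : σ i x = 0 := by
  set ζ : A.ι → M → Fin n → ℂ := fun i x => (K.g i x)⁻¹ *ᵥ η i x with hζ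
  set β : A.ι → M → Fin n → ℂ := fun i x => (σ i x).map conj *ᵥ ζ i x with hβ
  have hζs : ∀ i b, A.SmAt i (fun y => ζ i y b) := fun i b =>
    ContDiffOn.sum (s := Finset.univ)
      (f := fun c z => (K.g i ((A.e i).symm z))⁻¹ b c * η i ((A.e i).symm z) c)
      fun c _ => (smAt_inv K i b c).mul (hs i c)
  have hβs : ∀ i b, A.SmAt i (fun y => β i y b) := fun i b =>
    ContDiffOn.sum (s := Finset.univ)
      (f := fun c z => conj (σ i ((A.e i).symm z) b c) * ζ i ((A.e i).symm z) c)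
      fun c _ => (smAt_conj (hσs i b c)).mul (hζs i c)
  have hβt : C01 A (fun _ _ _ => 1) β := by
    intro i j x hx
    simp only [hβ, hζ, one_smul]
    rw [ht i j x hx, hη i j x hx, one_smul, ← inv_tr K hx, Matrix.map_mul, Matrix.map_mul]
    simp only [Matrix.mulVec_mulVec, Matrix.mul_assoc, Matrix.transpose_map]
  have hA : ∀ i a b, A.SmAt i (fun y => (K.g i y).adjugate a b) := fun i a b =>
    smAt_adj (kah_cf K) i b a
  have h0 := stokesR P hA hβs (rf_adj (K_tn K)) hβt (fun _ _ _ _ => one_mul _)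
    (dv0_adj (kah_cf K))
  have hd := dn_tr (rf_adj (K_tn K)) (tnF_Tm (c := fun _ _ => 1) hβs hβt)
    (fun _ _ _ _ => one_mul _)
  have key : ∀ i, ∀ x ∈ (A.e i).source,
      fnD K (fun i x => ((K.g i x).adjugate * Tm A β i x).trace) x =
        (1 / 2 : ℝ) * ((K.g i x)⁻¹ * σ i x * (K.g i x)⁻¹ᵀ * (σ i x)ᴴ).trace := by
    intro i x hx
    have hu := isUnit_iff_ne_zero.2 (K_det_ne K hx)
    have h1 : Tm A β i x = Tm A ζ i x * (σ i x)ᴴ := by
      ext a b
      have e : (fun y => β i y b) = fun y => ∑ c, conj (σ i y b c) * ζ i y c := rfl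
      rw [Tm_apply, e, dl_fsum fun c _ =>
        (da_of (smAt_conj (hσs i b c)) hx).mul (da_of (hζs i c) hx), Matrix.mul_apply]
      refine Finset.sum_congr rfl fun c _ => ?_
      rw [dlm (da_of (smAt_conj (hσs i b c)) hx) (da_of (hζs i c) hx) hx, hh i x hx, zero_mul,
        zero_add, mul_comm]
      rfl
    set U := Tm A ζ i x * (K.g i x)ᵀ with hU
    have h2 : ∀ a e, U a e = Tm A η i x a e -
        ∑ d, dl A i a (fun y => K.g i y e d) x * ζ i x d := by
      intro a e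
      have h3 : (fun y => η i y e) =ᶠ[𝓝 x] fun y => ∑ d, K.g i y e d * ζ i y d := by
        filter_upwards [(A.e i).open_source.mem_nhds hx] with y hy
        have : K.g i y *ᵥ ζ i y = η i y := by
          rw [hζ, Matrix.mulVec_mulVec,
            Matrix.mul_nonsing_inv _ (isUnit_iff_ne_zero.2 (K_det_ne K hy)), Matrix.one_mulVec]
        exact (congrFun this e).symm
      rw [Tm_apply, dl_congr hx h3,
        dl_fsum fun d _ => (da_of (K.sm i e d) hx).mul (da_of (hζs i d) hx),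
        ← Finset.sum_sub_distrib, hU, Matrix.mul_apply]
      refine Finset.sum_congr rfl fun d _ => ?_
      rw [dlm (da_of (K.sm i e d) hx) (da_of (hζs i d) hx) hx, Tm_apply, Matrix.transpose_apply]
      ring
    have h3 : σ i x = U - Uᵀ := by
      rw [hσ i x hx]
      ext a e
      simp only [Matrix.sub_apply, Matrix.transpose_apply, h2, dl_K K hx e _ a]
      ring
    have h4 : Tm A ζ i x = U * (K.g i x)⁻¹ᵀ := by
      rw [hU, Matrix.mul_assoc, ← Matrix.transpose_mul, Matrix.nonsing_inv_mul _ hu,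
        Matrix.transpose_one, Matrix.mul_one]
    have h5 : (σ i x)ᴴᵀ = - (σ i x)ᴴ := by
      rw [h3]
      ext a b
      simp
    have h6 : ((K.g i x)⁻¹ * (U * (K.g i x)⁻¹ᵀ * (σ i x)ᴴ)).trace =
        - ((K.g i x)⁻¹ * Uᵀ * (K.g i x)⁻¹ᵀ * (σ i x)ᴴ).trace := by
      rw [← Matrix.trace_transpose]
      simp only [Matrix.transpose_mul, Matrix.transpose_transpose, h5]
      rw [Matrix.mul_assoc, Matrix.trace_mul_comm, Matrix.mul_neg, Matrix.trace_neg]
    rw [fnD_div K hd hx, trace_adj K _ hx, mul_div_cancel_right₀ _ (K_det_ne K hx), h1, h4]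
    have h7 : ((K.g i x)⁻¹ * σ i x * (K.g i x)⁻¹ᵀ * (σ i x)ᴴ).trace =
        ((K.g i x)⁻¹ * (U * (K.g i x)⁻¹ᵀ * (σ i x)ᴴ)).trace -
          ((K.g i x)⁻¹ * Uᵀ * (K.g i x)⁻¹ᵀ * (σ i x)ᴴ).trace := by
      rw [← Matrix.trace_sub]
      congr 1
      conv_lhs => enter [1, 1, 2]; rw [h3]
      simp only [Matrix.mul_sub, Matrix.sub_mul, Matrix.mul_assoc]
    rw [h7]
    push_cast
    linear_combination (1 / 2 : ℂ) * h6
  have hp : ∀ i, ∀ x ∈ (A.e i).source, _ := fun i x hx =>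
    hs2_nonneg (K.pos i x hx).inv (K.pos i x hx).inv.transpose (σ i x)
  have h1 := dn_zero P K hd (fun i => smAt_trace (smAt_mm (hA i) (smAt_Tm (hβs i))))
    (by rw [h0]; rfl) (fun x => by
      rw [key _ x (mem_ci x), Complex.re_ofReal_mul]
      exact mul_nonneg (by norm_num) (Complex.le_def.1 (hp _ x (mem_ci x)).1).1) x
  rw [key i x hx, Complex.re_ofReal_mul] at h1
  refine (hp i x hx).2 (Complex.ext ?_ (Complex.le_def.1 (hp i x hx).1).2.symm)
  simpa using h1

/-- **exact constant `(1,1)` forms vanish** -/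
theorem one_one (P : Part A) (K : Kah A) {Φ : A.ι → M → Matrix (Fin q) (Fin n) ℂ}
    (hΦ : ∀ N, CF A (fun i x => pb (Φ i x) N)) {β : A.ι → M → Fin n → ℂ}
    (hs : ∀ i b, A.SmAt i (fun y => β i y b)) (hβ : C01 A (fun _ _ _ => 1) β)
    {T : Matrix (Fin q) (Fin q) ℂ}
    (hT : ∀ i, ∀ x ∈ (A.e i).source, pb (Φ i x) T = Tm A β i x - (Tm A β i x)ᴴ)
    {i0 : A.ι} {x0 : M} (hx0 : x0 ∈ (A.e i0).source)
    (h0 : Function.Injective (Φ i0 x0)ᵀ.mulVec) : T = 0 := by
  let _ : MeasurableSpace M := borel M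
  have : BorelSpace M := ⟨rfl⟩
  have := isFinite_vm (volK K)
  have := isOpenPos_vm (volK K)
  set Kg : M → Matrix (Fin q) (Fin q) ℂ := fun x => gr (K.g (ci A x) x) (Φ (ci A x) x) with hKg
  have hKe : ∀ x k l, Kg x k l = trK K (fun i x => pb (Φ i x) (Matrix.single l k 1)) x := by
    intro x k l
    unfold trK
    rw [trace_pb, Matrix.trace_single_mul, smul_eq_mul, one_mul]
  have hKc : Continuous Kg := continuous_matrix fun k l => by
    simp only [hKe]
    exact sm_continuous (sm_trK K (CF.tn (hΦ _)) (hΦ _).sm)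
  have hK0 : Kg x0 = gr (K.g i0 x0) (Φ i0 x0) := by
    ext k l
    rw [hKe, trK_eq K (CF.tn (hΦ _)) hx0, trace_pb, Matrix.trace_single_mul, smul_eq_mul, one_mul]
  have hKp : ∀ x, 0 ≤ (Kg x).det := fun x =>
    ((K.pos _ x (mem_ci x)).inv.posSemidef.conjTranspose_mul_mul_same (Φ (ci A x) x)ᵀ).det_nonneg
  have hI : ∫ x, (Kg x).det ∂(vm (volK K)) ≠ 0 := by
    intro h
    have hc : Continuous fun x => (Kg x).det := hKc.matrix_det
    have h1 : 0 < ∫ x, ((Kg x).det).re ∂(vm (volK K)) := by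
      refine (Complex.continuous_re.comp hc).integral_pos_of_hasCompactSupport_nonneg_nonzero
        (x := x0) (HasCompactSupport.of_compactSpace _) (fun x => (Complex.le_def.1 (hKp x)).1) ?_
      rw [hK0]
      exact (Complex.pos_iff.1
        ((K.pos i0 x0 hx0).inv.conjTranspose_mul_mul_same h0).det_pos).1.ne'
    have h2 := integral_re (μ := vm (volK K))
      (hc.integrable_of_hasCompactSupport (HasCompactSupport.of_compactSpace _))
    rw [h] at h2
    exact h1.ne' h2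
  refine eq_zero_of_trace_posDef fun Y hY => ?_
  set E := Y⁻¹ with hE
  have h1 : ∀ t : ℝ, ∫ x, ((1 + ((t : ℂ) • E) * Kg x).adjugate * (T * Kg x)).trace
      ∂(vm (volK K)) = 0 := by
    intro t
    have hG := (kah_cf K).add (hΦ ((t : ℂ) • E))
    have hA : ∀ i a b, A.SmAt i (fun y => (K.g i y + pb (Φ i y) ((t : ℂ) • E)).adjugate a b) :=
      fun i a b => smAt_adj hG i b a
    have h2 := stokesR P hA hs (rf_adj (CF.tn hG)) hβ (fun _ _ _ _ => one_mul _) (dv0_adj hG)
    have h3 : totc P (fun i x => conj ((K.g i x + pb (Φ i x) ((t : ℂ) • E)).adjugate *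
        Tm A β i x).trace) = 0 := (tot_conj P _ _).trans (by rw [← map_zero conj, ← h2]; rfl)
    have s1 := fun i => smAt_trace (smAt_mm (hA i) (smAt_Tm (hs i)))
    have h5 : totc P (fun i x => ((K.g i x + pb (Φ i x) ((t : ℂ) • E)).adjugate *
        pb (Φ i x) T).trace) = 0 := by
      refine (totc_congr P fun i x hx => ?_).trans ((tot_sub P _ s1
        fun i => smAt_conj (s1 i)).trans (sub_eq_zero.2 (h2.trans h3.symm)))
      have h6 : (K.g i x + pb (Φ i x) ((t : ℂ) • E)).IsHermitian := by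
        refine (K.pos i x hx).1.add ?_
        unfold Matrix.IsHermitian
        rw [pb_conjT, Matrix.conjTranspose_smul, hY.inv.1.eq, RCLike.star_def, Complex.conj_ofReal]
      rw [hT i x hx, Matrix.mul_sub, Matrix.trace_sub, trace_conjT h6.adjugate]
    rw [← integral_fnD K P (R273.GreenG_5.trA_dn (CF.tn hG) (CF.tn (hΦ T)))
      (R273.GreenG_5.smAt_trA hG (hΦ T))] at h5
    rw [← h5]
    refine integral_congr_ae (Eventually.of_forall fun x => ?_)
    unfold fnD
    simp only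
    rw [adj_pb (K_det_ne K (mem_ci x)), mul_div_cancel_left₀ _ (K_det_ne K (mem_ci x))]
  set F : ℝ → ℂ := fun s => ∫ x in univ, (((s : ℂ) • 1 + E * Kg x).adjugate * (T * Kg x)).trace
    ∂(vm (volK K)) with hF
  have hFc : Continuous F := by
    refine continuous_parametric_integral_of_continuous ?_ isCompact_univ
    have h2 : Continuous fun p : ℝ × M => Kg p.2 := hKc.comp continuous_snd
    exact (((((Complex.continuous_ofReal.comp continuous_fst).smul continuous_const).add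
      (continuous_const.matrix_mul h2)).matrix_adjugate).matrix_mul
        (continuous_const.matrix_mul h2)).matrix_trace
  have h2 : ∀ s : ℝ, s ≠ 0 → F s = 0 := by
    intro s hs0
    have hs1 : (s : ℂ) ≠ 0 := by exact_mod_cast hs0
    have h3 : ∀ x, (((s : ℂ) • 1 + E * Kg x).adjugate * (T * Kg x)).trace =
        (s : ℂ) ^ (Fintype.card (Fin q) - 1) *
          ((1 + (((s⁻¹ : ℝ) : ℂ) • E) * Kg x).adjugate * (T * Kg x)).trace := by
      intro x
      rw [← smul_eq_mul ((s : ℂ) ^ _), ← Matrix.trace_smul, ← Matrix.smul_mul, ← Matrix.adjugate_smul, smul_add,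
        Matrix.smul_mul, smul_smul, Complex.ofReal_inv, mul_inv_cancel₀ hs1, one_smul]
    simp only [hF, h3, Measure.restrict_univ]
    rw [integral_const_mul, h1, mul_zero]
  have h3 : F 0 = 0 :=
    congrFun (hFc.ext_on (dense_compl_singleton (0 : ℝ)) continuous_zero fun s hs => h2 s hs) 0
  have h4 : ∀ x, ((((0 : ℝ) : ℂ) • 1 + E * Kg x).adjugate * (T * Kg x)).trace =
      (E.det * (Y * T).trace) * (Kg x).det := by
    intro x
    rw [Complex.ofReal_zero, zero_smul, zero_add, Matrix.adjugate_mul_distrib, ← Matrix.mul_assoc,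
      Matrix.trace_mul_comm, ← Matrix.mul_assoc, ← Matrix.mul_assoc, Matrix.mul_adjugate,
      adj_eq hY.inv.det_pos.ne', Matrix.nonsing_inv_nonsing_inv _ (isUnit_iff_ne_zero.2
        hY.det_pos.ne')]
    simp only [Matrix.smul_mul, Matrix.one_mul, Matrix.trace_smul, smul_eq_mul, hE]
    ring
  simp only [hF, h4, Measure.restrict_univ] at h3
  rw [integral_const_mul] at h3
  exact (mul_eq_zero.1 ((mul_eq_zero.1 h3).resolve_right hI)).resolve_left hY.inv.det_pos.ne'

end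

end Crest.Agent.X261.Har
end

-- ▼ part X261/Har/HeB
section

/-!
# X261, HAR (helper94), file HeB: no Heisenberg quotient

* `HD.symm` : local form;
* `heis`    : if `β (g h) = β g + β h + B (lam g) (lam h)` and `da` is onto at one point, then `B`
  is symmetric.
-/

set_option autoImplicit false
set_option linter.unusedSectionVars false
set_option linter.style.haveILetI false

open Set Filter Topology Complex
open scoped ContDiff Matrix ComplexConjugate ComplexOrder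

namespace Crest.Agent.X261.Har

open Crest.Agent.R275 Crest.Agent.R275.Geo Crest.Agent.R275.Core144 Crest.Agent.R275.EDR890
open Crest.Agent.R275.C1d194 (smAt_ofReal)
open Crest.Agent.R275.OmT75 (dj dl)
open Crest.Agent.R273.Kah_333 Crest.Agent.R273.StV_37 Crest.Agent.R273.Green_5
open Crest.Agent.R273.GreenM_5 Crest.Agent.R273.UCov_914 Crest.Agent.R273.PiEnd_836

noncomputable section

variable {n q : ℕ} {M : Type} [TopologicalSpace M] {A : Atl n M}

/-- a real linear map of `ℂ^q` -/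
def Lm (Pq R : Matrix (Fin q) (Fin q) ℂ) (v : Fin q → ℂ) : Fin q → ℂ := Pq *ᵥ v + R *ᵥ star v

theorem Lm_add (Pq R : Matrix (Fin q) (Fin q) ℂ) (v w : Fin q → ℂ) :
    Lm Pq R (v + w) = Lm Pq R v + Lm Pq R w := by
  unfold Lm
  rw [star_add, Matrix.mulVec_add, Matrix.mulVec_add]
  abel

theorem Lm_apply (Pq R : Matrix (Fin q) (Fin q) ℂ) (v : Fin q → ℂ) (l : Fin q) :
    Lm Pq R v l = ∑ k, Pq l k * v k + ∑ k, R l k * conj (v k) := rfl

/-- local data -/
structure HD (A : Atl n M) (Pq R : Matrix (Fin q) (Fin q) ℂ) where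
  a : A.ι → M → Fin q → ℂ
  f : A.ι → M → ℂ
  asm : ∀ i k, A.SmAt i (fun y => a i y k)
  hol : ∀ i, ∀ x ∈ (A.e i).source, ∀ k b, A.db i b (fun y => a i y k) x = 0
  fsm : ∀ i, A.SmAt i (f i)
  real : ∀ i y, conj (f i y) = f i y
  tr : ∀ i j, ∃ (l : Fin q → ℂ) (c : ℂ), ∀ y ∈ (A.e i).source ∩ (A.e j).source,
    a i y = a j y + l ∧ f i y = f j y +
      (∑ k, Lm Pq R l k * a j y k + conj (∑ k, Lm Pq R l k * a j y k)) + c

namespace HD

variable {Pq R : Matrix (Fin q) (Fin q) ℂ} (H : HD A Pq R)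

/-- the differential of `a` -/
def Φ (i : A.ι) (x : M) : Matrix (Fin q) (Fin n) ℂ :=
  Matrix.of fun k b => dl A i b (fun y => H.a i y k) x

theorem Φ_sm (i : A.ι) (k : Fin q) (b : Fin n) : A.SmAt i (fun y => H.Φ i y k b) :=
  smAt_dl (H.asm i k) b

theorem Φ_tr {i j : A.ι} {x : M} (hx : x ∈ (A.e i).source ∩ (A.e j).source) :
    H.Φ i x = H.Φ j x * Jm A i j x := by
  ext k b
  have h : Aff A (fun _ _ => 1) (fun i y => H.a i y k) := aff_of (fun i => H.asm i k) fun i j => by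
    obtain ⟨l, c, h⟩ := H.tr i j
    exact ⟨l k, fun y hy => by rw [(h y hy).1, one_mul]; rfl⟩
  have h1 := congrFun (h.c10 i j x hx) b
  rw [one_smul] at h1
  refine h1.trans ?_
  change ∑ d, A.J i j x d b * H.Φ j x k d = ∑ d, H.Φ j x k d * A.J i j x d b
  exact Finset.sum_congr rfl fun d _ => mul_comm _ _

variable {i : A.ι} {x : M}

theorem dl_ca (hx : x ∈ (A.e i).source) (k : Fin q) (b : Fin n) :
    dl A i b (fun y => conj (H.a i y k)) x = 0 := by
  rw [dl_conj, H.hol i x hx, map_zero]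

theorem dl_cΦ (hx : x ∈ (A.e i).source) (k : Fin q) (b c : Fin n) :
    dl A i c (fun y => conj (H.Φ i y k b)) x = 0 := by
  have h1 : A.db i c (fun y => H.a i y k) =ᶠ[𝓝 x] fun _ => 0 := by
    filter_upwards [(A.e i).open_source.mem_nhds hx] with y hy using H.hol i y hy k c
  have h2 : A.db i c (fun y => H.Φ i y k b) x = 0 :=
    (db_dl_comm (H.asm i k) hx b c).trans (by rw [dl_congr hx h1, dl_cst])
  rw [dl_conj, h2, map_zero]

theorem dl_Φ (hx : x ∈ (A.e i).source) (k : Fin q) (b c : Fin n) :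
    dl A i c (fun y => H.Φ i y k b) x = dl A i b (fun y => H.Φ i y k c) x :=
  dl_dl_comm (H.asm i k) hx c b

theorem dl_lin (hx : x ∈ (A.e i).source) (c : Fin q → ℂ) (b : Fin n) :
    dl A i b (fun y => ∑ k, c k * H.a i y k) x = ∑ k, c k * H.Φ i x k b := by
  rw [dl_fsum fun k _ => (da_const _).mul (da_of (H.asm i k) hx)]
  exact Finset.sum_congr rfl fun k _ => dl_cmul _ (da_of (H.asm i k) hx) b

theorem dl_clin (hx : x ∈ (A.e i).source) (c : Fin q → ℂ) (b : Fin n) :
    dl A i b (fun y => ∑ k, c k * conj (H.a i y k)) x = 0 := by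
  rw [dl_fsum fun k _ => (da_const _).mul (da_of (H.asm i k) hx).conj]
  exact Finset.sum_eq_zero fun k _ => by
    rw [dl_cmul _ (da_of (H.asm i k) hx).conj b, H.dl_ca hx, mul_zero]

theorem sm_lin (i : A.ι) (c : Fin q → ℂ) : A.SmAt i (fun y => ∑ k, c k * H.a i y k) :=
  ContDiffOn.sum fun k _ => contDiffOn_const.mul (H.asm i k)

theorem sm_clin (i : A.ι) (c : Fin q → ℂ) : A.SmAt i (fun y => ∑ k, c k * conj (H.a i y k)) :=
  ContDiffOn.sum fun k _ => contDiffOn_const.mul (smAt_conj (H.asm i k))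

theorem sm_L (i : A.ι) (l : Fin q) : A.SmAt i (fun y => Lm Pq R (H.a i y) l) :=
  (H.sm_lin i (Pq l)).add (H.sm_clin i (R l))

theorem dl_L (hx : x ∈ (A.e i).source) (l : Fin q) (b : Fin n) :
    dl A i b (fun y => Lm Pq R (H.a i y) l) x = (Pq * H.Φ i x) l b := by
  simp only [Lm_apply]
  rw [dl_add (da_of (H.sm_lin i (Pq l)) hx) (da_of (H.sm_clin i (R l)) hx), H.dl_lin hx,
    H.dl_clin hx, add_zero, Matrix.mul_apply]

theorem dl_cL (hx : x ∈ (A.e i).source) (l : Fin q) (b : Fin n) :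
    dl A i b (fun y => conj (Lm Pq R (H.a i y) l)) x = (R.map conj * H.Φ i x) l b := by
  simp only [Lm_apply, map_add, map_sum, map_mul, conj_conj]
  rw [dl_add (da_of (H.sm_clin i fun k => conj (Pq l k)) hx)
    (da_of (H.sm_lin i fun k => conj (R l k)) hx), H.dl_lin hx, H.dl_clin hx, zero_add,
    Matrix.mul_apply]
  rfl

theorem cf_pb (N : Matrix (Fin q) (Fin q) ℂ) : CF A (fun i x => pb (H.Φ i x) N) := by
  have e : ∀ i a b, (fun y => pb (H.Φ i y) N a b) =
      fun y => ∑ l, (∑ k, N k l * H.Φ i y k a) * conj (H.Φ i y l b) := by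
    intro i a b
    funext y
    simp only [pb, Matrix.mul_apply, Matrix.transpose_apply, Matrix.map_apply, mul_comm]
  have s1 : ∀ i a l, A.SmAt i (fun y => ∑ k, N k l * H.Φ i y k a) := fun i a l =>
    ContDiffOn.sum fun k _ => contDiffOn_const.mul (H.Φ_sm i k a)
  refine cf_of (fun i a b => ?_) (fun i j x hx => ?_) fun i x hx a b c => ?_
  · rw [e]
    exact ContDiffOn.sum fun l _ => (s1 i a l).mul (smAt_conj (H.Φ_sm i l b))
  · simp only [pb]
    rw [H.Φ_tr hx, Matrix.transpose_mul, Matrix.map_mul]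
    simp only [Matrix.mul_assoc]
  · have key : ∀ a c, dl A i c (fun y => pb (H.Φ i y) N a b) x =
        ∑ l, (∑ k, N k l * dl A i c (fun y => H.Φ i y k a) x) * conj (H.Φ i x l b) := by
      intro a c
      rw [e, dl_fsum fun l _ => (da_of (s1 i a l) hx).mul (da_of (H.Φ_sm i l b) hx).conj]
      refine Finset.sum_congr rfl fun l _ => ?_
      rw [dlm (da_of (s1 i a l) hx) (da_of (H.Φ_sm i l b) hx).conj hx, H.dl_cΦ hx, mul_zero,
        add_zero, dl_fsum fun k _ => (da_const _).mul (da_of (H.Φ_sm i k a) hx)]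
      congr 1
      exact Finset.sum_congr rfl fun k _ => dl_cmul _ (da_of (H.Φ_sm i k a) hx) c
    rw [key, key]
    simp only [H.dl_Φ hx _ a c]

/-- the global `(1,0)` form -/
def η (i : A.ι) (x : M) : Fin n → ℂ :=
  fun b => dl A i b (H.f i) x - ∑ l, H.Φ i x l b * Lm Pq R (H.a i x) l

theorem η_sm (i : A.ι) (b : Fin n) : A.SmAt i (fun y => H.η i y b) :=
  (smAt_dl (H.fsm i) b).sub (ContDiffOn.sum fun l _ => (H.Φ_sm i l b).mul (H.sm_L i l))

theorem η_tr : C10 A (fun _ _ _ => 1) H.η := by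
  intro i j x hx
  obtain ⟨l, c, h⟩ := H.tr i j
  have h1 : H.f i =ᶠ[𝓝 x] fun y => H.f j y +
      (∑ k, Lm Pq R l k * H.a j y k + ∑ k, conj (Lm Pq R l k) * conj (H.a j y k)) + c := by
    filter_upwards [ov_nhds hx] with y hy
    rw [(h y hy).2]
    simp only [map_sum, map_mul]
  have d1 := da_of (H.fsm j) hx.2
  have d2 := da_of (H.sm_lin j (Lm Pq R l)) hx.2
  have d3 := da_of (H.sm_clin j fun k => conj (Lm Pq R l k)) hx.2
  funext b
  rw [one_smul]
  change dl A i b (H.f i) x - ∑ k, H.Φ i x k b * Lm Pq R (H.a i x) k =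
    ∑ d, A.J i j x d b * (dl A j d (H.f j) x - ∑ k, H.Φ j x k d * Lm Pq R (H.a j x) k)
  rw [dl_congr hx.1 h1, dlc ((d1.add (d2.add d3)).add (da_const c)) hx, (h x hx).1, Lm_add,
    H.Φ_tr hx]
  simp only [Matrix.mul_apply, Finset.sum_mul, Jm_apply]
  rw [Finset.sum_comm, ← Finset.sum_sub_distrib]
  refine Finset.sum_congr rfl fun d _ => ?_
  rw [dl_add (d1.add (d2.add d3)) (da_const c), dl_cst, dl_add d1 (d2.add d3), dl_add d2 d3,
    H.dl_lin hx.2, H.dl_clin hx.2]
  simp only [mul_sub, mul_add, add_zero, Finset.mul_sum, Pi.add_apply, Finset.sum_add_distrib]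
  have e1 : ∑ k, A.J i j x d b * (Lm Pq R l k * H.Φ j x k d) =
      ∑ k, H.Φ j x k d * A.J i j x d b * Lm Pq R l k :=
    Finset.sum_congr rfl fun k _ => by ring
  have e2 : ∑ k, A.J i j x d b * (H.Φ j x k d * Lm Pq R (H.a j x) k) =
      ∑ k, H.Φ j x k d * A.J i j x d b * Lm Pq R (H.a j x) k :=
    Finset.sum_congr rfl fun k _ => by ring
  rw [e1, e2]
  ring

theorem Tm_η (hx : x ∈ (A.e i).source) :
    (H.Φ i x)ᵀ * (Pq - Pqᵀ) * H.Φ i x = Tm A H.η i x - (Tm A H.η i x)ᵀ := by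
  have key : ∀ a b, Tm A H.η i x a b = dl A i a (dl A i b (H.f i)) x -
      ∑ l, dl A i a (fun y => H.Φ i y l b) x * Lm Pq R (H.a i x) l -
        ((H.Φ i x)ᵀ * (Pq * H.Φ i x)) b a := by
    intro a b
    have d1 := fun l => (da_of (H.Φ_sm i l b) hx).mul (da_of (H.sm_L i l) hx)
    rw [Tm_apply]
    simp only [η]
    rw [dl_sub (da_of (smAt_dl (H.fsm i) b) hx) (da_sum fun l _ => d1 l),
      dl_fsum fun l _ => d1 l, sub_sub, Matrix.mul_apply, ← Finset.sum_add_distrib]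
    congr 1
    refine Finset.sum_congr rfl fun l _ => ?_
    rw [dlm (da_of (H.Φ_sm i l b) hx) (da_of (H.sm_L i l) hx) hx, H.dl_L hx]
    rfl
  ext a b
  have e : ((H.Φ i x)ᵀ * (Pq * H.Φ i x)) b a = ((H.Φ i x)ᵀ * Pqᵀ * H.Φ i x) a b := by
    rw [← Matrix.transpose_apply (_ * _) a b, Matrix.transpose_mul, Matrix.transpose_mul,
      Matrix.transpose_transpose]
  rw [Matrix.sub_apply, Matrix.transpose_apply, key, key, dl_dl_comm (H.fsm i) hx a b, e,
    Matrix.mul_sub, Matrix.sub_mul, Matrix.sub_apply, ← Matrix.mul_assoc]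
  simp only [H.dl_Φ hx _ a b]
  ring

theorem Tm_cη (hx : x ∈ (A.e i).source) :
    Tm A (fun i x => star (H.η i x)) i x = hm A (H.f i) i x - pb (H.Φ i x) Rᴴ := by
  ext a b
  have e : (fun y => star (H.η i y) b) = fun y => A.db i b (H.f i) y -
      ∑ l, conj (H.Φ i y l b) * conj (Lm Pq R (H.a i y) l) := by
    funext y
    rw [db_eq_conj]
    simp only [H.real, Pi.star_apply, η, RCLike.star_def, map_sub, map_sum, map_mul]
  have d1 := fun l => (da_of (H.Φ_sm i l b) hx).conj.mul (da_of (H.sm_L i l) hx).conj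
  rw [Tm_apply, e, dl_sub (da_of ((H.fsm i).db b) hx) (da_sum fun l _ => d1 l),
    dl_fsum fun l _ => d1 l, Matrix.sub_apply, hm_apply, pb, Matrix.mul_apply]
  congr 1
  refine Finset.sum_congr rfl fun l _ => ?_
  rw [dlm (da_of (H.Φ_sm i l b) hx).conj (da_of (H.sm_L i l) hx).conj hx, H.dl_cΦ hx, H.dl_cL hx,
    zero_mul, zero_add, mul_comm]
  simp only [Matrix.mul_apply, Matrix.map_apply, Matrix.transpose_apply,
    Matrix.conjTranspose_apply, RCLike.star_def, mul_comm]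

/-- **local form** -/
theorem symm [T2Space M] [CompactSpace M] [Finite A.ι] (P : Part A) (K : Kah A)
    (hx : x ∈ (A.e i).source) {Ψ : Matrix (Fin n) (Fin q) ℂ} (hΨ : H.Φ i x * Ψ = 1) :
    Pqᵀ = Pq ∧ Rᴴ = R := by
  have hΨ' : Ψᵀ * (H.Φ i x)ᵀ = 1 := by rw [← Matrix.transpose_mul, hΨ, Matrix.transpose_one]
  constructor
  · have e : ∀ i a b, (fun y => ((H.Φ i y)ᵀ * (Pq - Pqᵀ) * H.Φ i y) a b) =
        fun y => ∑ l, ∑ k, (Pq - Pqᵀ) k l * (H.Φ i y k a * H.Φ i y l b) := by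
      intro i a b
      funext y
      simp only [Matrix.mul_apply, Matrix.transpose_apply, Finset.sum_mul]
      exact Finset.sum_congr rfl fun l _ => Finset.sum_congr rfl fun k _ => by ring
    have h1 := two_zero P K (σ := fun i x => (H.Φ i x)ᵀ * (Pq - Pqᵀ) * H.Φ i x) H.η_sm H.η_tr
      (fun i a b => by
        rw [e]
        exact ContDiffOn.sum fun l _ => ContDiffOn.sum fun k _ =>
          contDiffOn_const.mul ((H.Φ_sm i k a).mul (H.Φ_sm i l b)))
      (fun i x hx => H.Tm_η hx)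
      (fun i j x hx => by
        rw [H.Φ_tr hx, Matrix.transpose_mul]
        simp only [Matrix.mul_assoc])
      (fun i x hx a b c => by
        have e' : (fun y => conj (((H.Φ i y)ᵀ * (Pq - Pqᵀ) * H.Φ i y) a b)) = fun y =>
            ∑ l, ∑ k, conj ((Pq - Pqᵀ) k l) * (conj (H.Φ i y k a) * conj (H.Φ i y l b)) := by
          funext y
          rw [congrFun (e i a b) y]
          simp only [map_sum, map_mul]
        have d1 := fun l k => (da_of (H.Φ_sm i k a) hx).conj.mul (da_of (H.Φ_sm i l b) hx).conj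
        rw [e', dl_fsum fun l _ => da_sum fun k _ => (da_const _).mul (d1 l k)]
        refine Finset.sum_eq_zero fun l _ => ?_
        rw [dl_fsum fun k _ => (da_const _).mul (d1 l k)]
        refine Finset.sum_eq_zero fun k _ => ?_
        rw [dl_cmul _ (d1 l k), dlm (da_of (H.Φ_sm i k a) hx).conj (da_of (H.Φ_sm i l b) hx).conj hx,
          H.dl_cΦ hx, H.dl_cΦ hx]
        ring) i x hx
    have h2 : Pq - Pqᵀ = Ψᵀ * ((H.Φ i x)ᵀ * (Pq - Pqᵀ) * H.Φ i x) * Ψ := by
      rw [show Ψᵀ * ((H.Φ i x)ᵀ * (Pq - Pqᵀ) * H.Φ i x) * Ψ =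
        (Ψᵀ * (H.Φ i x)ᵀ) * (Pq - Pqᵀ) * (H.Φ i x * Ψ) by simp only [Matrix.mul_assoc], hΨ, hΨ',
        Matrix.one_mul, Matrix.mul_one]
    rw [h1, Matrix.mul_zero, Matrix.zero_mul] at h2
    exact (sub_eq_zero.1 h2).symm
  · have h1 := one_one P K H.cf_pb (β := fun i x => star (H.η i x)) (T := R - Rᴴ)
      (fun i b => smAt_conj (H.η_sm i b)) (by simpa only [map_one] using H.η_tr.cj)
      (fun i x hx => by
        have h2 := hm_conj (H.fsm i) hx
        simp only [H.real] at h2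
        rw [H.Tm_cη hx, Matrix.conjTranspose_sub, ← h2, pb_conjT,
          Matrix.conjTranspose_conjTranspose, pb_sub]
        abel) hx fun v w h => by
          have h2 := congrArg (Ψᵀ *ᵥ ·) h
          simpa only [Matrix.mulVec_mulVec, hΨ', Matrix.one_mulVec] using h2
    exact (sub_eq_zero.1 h1).symm

end HD

theorem exists_Lm (B : Cn q →L[ℝ] Cn q →L[ℝ] ℝ) : ∃ Pq R : Matrix (Fin q) (Fin q) ℂ,
    ∀ v w : Cn q, (B v w : ℂ) =
      ∑ k, Lm Pq R v k * w k + conj (∑ k, Lm Pq R v k * w k) := by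
  set C : Fin q → Cn q →L[ℝ] ℂ := fun k => (1 / 2 : ℂ) •
    (Complex.ofRealCLM ∘L B.flip (EuclideanSpace.single k 1) -
      I • Complex.ofRealCLM ∘L B.flip (EuclideanSpace.single k I)) with hC
  refine ⟨Matrix.of fun k m => (1 / 2 : ℂ) • (C k (EuclideanSpace.single m 1) -
      I • C k (EuclideanSpace.single m I)),
    Matrix.of fun k m => (1 / 2 : ℂ) • (C k (EuclideanSpace.single m 1) +
      I • C k (EuclideanSpace.single m I)), fun v w => ?_⟩
  have h1 : ∀ k, Lm (Matrix.of fun k m => (1 / 2 : ℂ) • (C k (EuclideanSpace.single m 1) -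
      I • C k (EuclideanSpace.single m I)))
      (Matrix.of fun k m => (1 / 2 : ℂ) • (C k (EuclideanSpace.single m 1) +
        I • C k (EuclideanSpace.single m I))) v k = C k v := by
    intro k
    rw [OmT75.expand (C k) v, Lm_apply, ← Finset.sum_add_distrib]
    refine Finset.sum_congr rfl fun m _ => ?_
    simp only [Matrix.of_apply, smul_eq_mul]
    ring
  simp only [h1]
  rw [map_sum, ← Finset.sum_add_distrib]
  refine (OmT75.expand (Complex.ofRealCLM ∘L B v) w).trans (Finset.sum_congr rfl fun k _ => ?_)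
  simp [hC, map_ofNat]
  ring

theorem Lm_symm {Pq R : Matrix (Fin q) (Fin q) ℂ} (hP : Pqᵀ = Pq) (hR : Rᴴ = R)
    (v w : Fin q → ℂ) : ∑ k, Lm Pq R v k * w k + conj (∑ k, Lm Pq R v k * w k) =
      ∑ k, Lm Pq R w k * v k + conj (∑ k, Lm Pq R w k * v k) := by
  have h1 : ∑ k, (∑ m, Pq k m * v m) * w k = ∑ k, (∑ m, Pq k m * w m) * v k := by
    simp only [Finset.sum_mul]
    rw [Finset.sum_comm]
    refine Finset.sum_congr rfl fun k _ => Finset.sum_congr rfl fun m _ => ?_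
    rw [show Pq m k = Pq k m from congrFun (congrFun hP k) m]
    ring
  have h2 : ∀ v w : Fin q → ℂ, conj (∑ k, (∑ m, R k m * conj (v m)) * w k) =
      ∑ k, (∑ m, R k m * conj (w m)) * v k := by
    intro v w
    simp only [Finset.sum_mul, map_sum, map_mul, conj_conj]
    rw [Finset.sum_comm]
    refine Finset.sum_congr rfl fun k _ => Finset.sum_congr rfl fun m _ => ?_
    rw [show conj (R m k) = R k m from congrFun (congrFun hR k) m]
    ring
  simp only [Lm_apply, add_mul, Finset.sum_add_distrib, map_add]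
  rw [h1, h2 v w, h2 w v]
  ring

variable {X : Type} [TopologicalSpace X] {A : Atl n X} {G : Type} [Group G]
  [T2Space X] [CompactSpace X] [Finite A.ι]

theorem heis_top (D : MonD A G) (P : Part A) (K : Kah A) {a : D.cov G → Cn q}
    (ha : HolF (D.atl G) a) {lam : G → Cn q} (hl : ∀ (g : G) e, a (g • e) = a e + lam g)
    (B : Cn q →L[ℝ] Cn q →L[ℝ] ℝ) {β : G → ℝ}
    (hβ : ∀ g h, β (g * h) = β g + β h + B (lam g) (lam h)) {p : (D.atl G).ι} {z : Cn n}
    (hz : z ∈ ((D.atl G).e p).target)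
    (hs : Function.Surjective (fderiv ℂ (fun z => a (((D.atl G).e p).symm z)) z)) (v w : Cn q) :
    B v w = B w v := by
  classical
  letI := Fintype.ofFinite A.ι
  obtain ⟨Pq, R, hB⟩ := exists_Lm B
  have hg : ∀ i j, ∃ g : G, ∀ x ∈ (A.e i).source ∩ (A.e j).source, g = (D.c i j x)⁻¹ := by
    intro i j
    by_cases h : ((A.e i).source ∩ (A.e j).source).Nonempty
    · obtain ⟨y, hy⟩ := h
      exact ⟨_, fun x hx => by rw [D.c_loc i j x hx y hy]⟩
    · exact ⟨1, fun x hx => absurd ⟨x, hx⟩ h⟩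
  choose g hg using hg
  set b : A.ι → X → Cn q := fun i x => a (D.pt i (1 : G) x) with hb
  have hbt : ∀ i j, ∀ x ∈ (A.e i).source ∩ (A.e j).source, b i x = b j x + lam (g i j) := by
    intro i j x hx
    simp only [hb]
    rw [← hl, D.deck_pt, hg i j x hx, inv_inv, one_mul, D.pt_eq (1 : G) hx.1 hx.2, smul_eq_mul,
      mul_one]
  have hbh : ∀ i k, DifferentiableOn ℂ (fun z => b i ((A.e i).symm z) k) (A.e i).target :=
    fun i k => ha.clm (pj k) (i, 1)
  have hbs : ∀ i, A.SmAt i (b i) := fun i => ha.sm (i, 1)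
  set f : A.ι → X → ℝ := fun i x =>
    ∑ k, P.ψ k x * (B (lam (g i k)) (b i x - lam (g i k)) + β (g i k)) with hf
  let H : HD A Pq R :=
    { a := fun i x => b i x
      f := fun i x => f i x
      asm := fun i k => (ha.clm (pj k)).sm (i, 1)
      hol := fun i x hx k c => Crest.Agent.R273.Levi_145.dbj_holo
        ((hbh i k).differentiableAt ((A.e i).open_target.mem_nhds ((A.e i).map_source hx))) c
      fsm := fun i => smAt_ofReal (ContDiffOn.sum fun k _ => (P.ψ_sm k i).mul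
        (((B (lam (g i k))).contDiff.comp_contDiffOn ((hbs i).sub contDiffOn_const)).add
          contDiffOn_const))
      real := fun i y => Complex.conj_ofReal _
      tr := fun i j => ⟨lam (g i j), β (g i j), fun y hy => ⟨by rw [hbt i j y hy]; rfl, by
        rw [← hB, ← Complex.ofReal_add, ← Complex.ofReal_add]
        congr 1
        have h1 : ∀ k, P.ψ k y * (B (lam (g i k)) (b i y - lam (g i k)) + β (g i k)) =
            P.ψ k y * (B (lam (g j k)) (b j y - lam (g j k)) + β (g j k)) +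
              P.ψ k y * (B (lam (g i j)) (b j y) + β (g i j)) := by
          intro k
          by_cases hk : y ∈ (A.e k).source
          · have h2 : g i k = g i j * g j k := by
              rw [hg i k y ⟨hy.1, hk⟩, hg i j y hy, hg j k y ⟨hy.2, hk⟩, ← mul_inv_rev,
                D.c_mul i j k y ⟨hy, hk⟩]
            have h3 := hbt i k y ⟨hy.1, hk⟩
            have h4 := hbt j k y ⟨hy.2, hk⟩
            have h5 : lam (g i k) = lam (g i j) + lam (g j k) := by
              have h6 := hbt i j y hy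
              rw [h3, h4, add_assoc, add_comm (lam (g j k))] at h6
              exact add_left_cancel h6
            rw [h3, h4, add_sub_cancel_right, add_sub_cancel_right, h5, h2, hβ]
            simp only [map_add, _root_.add_apply]
            ring
          · simp [ψ_zero P hk]
        simp only [hf, h1, Finset.sum_add_distrib, ← Finset.sum_mul, sum_ψ P y]
        ring⟩⟩ }
  obtain ⟨i, u⟩ := p
  have hx : (A.e i).symm z ∈ (A.e i).source := (A.e i).map_target hz
  have e1 : (fun z => a (((D.atl G).e (i, u)).symm z)) =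
      fun z => b i ((A.e i).symm z) + lam u⁻¹ := by
    funext z
    simp only [hb]
    rw [← hl, D.deck_pt, inv_inv, one_mul]
    rfl
  rw [e1, fderiv_add_const] at hs
  have hd : DifferentiableAt ℂ (fun z => b i ((A.e i).symm z)) z :=
    (ha (i, 1)).differentiableAt ((A.e i).open_target.mem_nhds hz)
  choose ψ hψ using fun k => hs (EuclideanSpace.single k 1)
  obtain ⟨hP, hR⟩ := H.symm P K hx (Ψ := Matrix.of fun c k => ψ k c) (by
    ext k l
    have h1 : ∀ c, H.Φ i ((A.e i).symm z) k c =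
        fderiv ℂ (fun z => b i ((A.e i).symm z)) z (EuclideanSpace.single c 1) k := by
      intro c
      refine (dl_hol (f := fun y => b i y k) (hbh i k) hx c).trans ?_
      rw [(A.e i).right_inv hz]
      exact congrArg (fun L => L (EuclideanSpace.single c 1))
        ((pj k).hasFDerivAt.comp z hd.hasFDerivAt).fderiv
    have h2 := congrArg (fun u : Cn q => u k) (hψ l)
    rw [clm_eq] at h2
    simp only [Matrix.mul_apply, h1, Matrix.of_apply, Matrix.one_apply]
    simpa [Finset.sum_apply, mul_comm, Pi.single_apply] using h2)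
  exact_mod_cast (hB v w).trans ((Lm_symm hP hR v w).trans (hB w v).symm)

/-- **no Heisenberg quotient** -/
theorem heis (D : MonD A G) (P : Part A) (K : Kah A) (H : Subgroup G) [H.FiniteIndex]
    {a : D.cov G → Cn q} (ha : HolF (D.atl G) a) {lam : H → Cn q}
    (hl : ∀ (h : H) e, a ((h : G) • e) = a e + lam h) (B : Cn q →L[ℝ] Cn q →L[ℝ] ℝ) {β : H → ℝ}
    (hβ : ∀ g h, β (g * h) = β g + β h + B (lam g) (lam h)) {p : (D.atl G).ι} {e : D.cov G}
    (he : e ∈ ((D.atl G).e p).source)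
    (hs : Function.Surjective
      (fderiv ℂ (fun z => a (((D.atl G).e p).symm z)) ((D.atl G).e p e))) (v w : Cn q) :
    B v w = B w v := by
  letI := Fintype.ofFinite (G ⧸ H)
  obtain ⟨i, u⟩ := p
  have hz := ((D.atl G).e (i, u)).map_source he
  have hu : (u : G ⧸ H).out⁻¹ * u ∈ H := QuotientGroup.eq.1 (QuotientGroup.out_eq' _)
  refine heis_top (D.sub H) (D.pullPart (G ⧸ H) P) (R273.RMan4_798.pullKah D (G ⧸ H) K)
    (a := fun e => a (D.ofSub H e)) (ha.comp (D.holMap_ofSub H))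
    (fun h e => by rw [D.ofSub_deck, hl]) B hβ (p := ((i, (u : G ⧸ H)), ⟨_, hu⟩)) hz ?_ v w
  have h1 : (fun z => a (D.ofSub H ((((D.sub H).atl H).e ((i, (u : G ⧸ H)), ⟨_, hu⟩)).symm z)))
      =ᶠ[𝓝 ((D.atl G).e (i, u) e)] fun z => a (((D.atl G).e (i, u)).symm z) := by
    filter_upwards [(A.e i).open_target.mem_nhds hz] with z hz
    have hx := (A.e i).map_target hz
    congr 1
    have h2 : D.co i (D.pt i (u : G ⧸ H) ((A.e i).symm z)) = u := D.co_pt _ hx
    have h3 : (D.sub H).co (i, (u : G ⧸ H)) ((D.sub H).pt (i, (u : G ⧸ H)) (⟨_, hu⟩ : H)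
        (D.pt i (u : G ⧸ H) ((A.e i).symm z))) = (⟨_, hu⟩ : H) :=
      (D.sub H).co_pt _ (D.pt_mem_source (p := (i, (u : G ⧸ H))) hx)
    refine (D.ofSub_eq H (i := i) (by exact hx)).trans ?_
    change D.pt i ((D.co i (D.pt i (u : G ⧸ H) ((A.e i).symm z))).out *
      ((D.sub H).co (i, D.co i (D.pt i (u : G ⧸ H) ((A.e i).symm z)))
        ((D.sub H).pt (i, (u : G ⧸ H)) (⟨_, hu⟩ : H)
          (D.pt i (u : G ⧸ H) ((A.e i).symm z))) : H)) ((A.e i).symm z) =
      D.pt i u ((A.e i).symm z)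
    rw [h2, h3, mul_inv_cancel_left]
  rw [h1.fderiv_eq]
  exact hs

end

end Crest.Agent.X261.Har
end

-- ▼ part X261/End/Set

/-!
# X261 / END (helper31), file `Set`: B0 (the setup)

* `exists_AQ`, `setup` : the reduced Albanese datum exists;
* `AQ.toEqv`, `AQ.reg`, `AQ.det`, `AQ.coc`, `AQ.heis`, `AQ.sub'`, `AQ.inj'`.
-/

set_option autoImplicit false
set_option linter.unusedSectionVars false

open Set Module

namespace Crest.Agent.X261.End

open Crest.Agent.X261.Grp Crest.Agent.X261.Har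
open Crest.Agent.R275 Crest.Agent.R275.Geo Crest.Agent.R275.GC293 Crest.Agent.R273.Kah_333
open Crest.Agent.R273.Alb645 Crest.Agent.R273.UCov_914 Crest.Agent.R281.ThnM_280
open Crest.Agent.X261.Uen (NoForms)

noncomputable section

variable {n : ℕ} {X : Type} [TopologicalSpace X] {A : Atl n X} {Γ : Type} [Group Γ]
  {D : MonD A Γ}

theorem fin_of_disc {V : Type} [NormedAddCommGroup V] [NormedSpace ℝ V] [FiniteDimensional ℝ V]
    {H : Subgroup Γ} {lam : Γ → V} (hl : AddOn H lam)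
    (hd : ∃ c : ℝ, 0 < c ∧ ∀ g ∈ H, lam g ≠ 0 → c ≤ ‖lam g‖) (R : ℝ) :
    {l | (∃ h ∈ H, lam h = l) ∧ ‖l‖ ≤ R}.Finite := by
  obtain ⟨c, h1, h2⟩ := hd
  refine Uen.Sub.finite_of_sep h1 (fun a ha => ha.2) ?_
  rintro _ ⟨⟨g, hg, rfl⟩, -⟩ _ ⟨⟨h, hh, rfl⟩, -⟩ h3
  by_contra h4
  have h5 : lam (g * h⁻¹) = lam g - lam h := by
    rw [hl g hg _ (H.inv_mem hh), hl.inv hh, sub_eq_add_neg]
  exact (h2 _ (H.mul_mem hg (H.inv_mem hh)) (by rwa [h5, sub_ne_zero])).not_gt (by rwa [h5])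

/-- **B0** -/
theorem exists_AQ [T2Space X] [CompactSpace X] [Finite A.ι] (D : MonD A Γ)
    [SimplyConnectedSpace (D.cov Γ)] (hA : GoodA A) (P : Part A) (K : Kah A)
    (hN : ∀ H : Subgroup Γ, H.Normal → H.FiniteIndex → NoForms D H) (N : Subgroup Γ) [N.Normal] :
    ∃ q, Nonempty (AQ D N q) := by
  have := Cov.A.fg D
  have hfg : ∀ H : Subgroup Γ, H.FiniteIndex → H.FG := fun H _ =>
    (Group.fg_iff_subgroup_fg H).1 inferInstance
  obtain ⟨H, h1, h2, h3, h4⟩ := exists_max N (B := 2 * n) fun H h1 h2 => by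
    obtain ⟨p, ⟨Z⟩⟩ := exists_alb D hA H P K
    have h3 := fin_Hm N (alb_all Z)
    have E : Uen.Eqv D H Z.a (fun g => Z.L g) Z.lam := ⟨Z.hol, Z.eqv, Z.LH,
      fin_of_disc (lam_add Z.eqv Z.LH) (alb_disc Z (hfg H h2)), alb_inj Z⟩
    refine ⟨h3.1, h3.2.trans ?_⟩
    rw [finrank_real_of_complex, finrank_euclideanSpace_fin]
    exact Nat.mul_le_mul_left 2 (E.ueno (hN H h1 h2)).2.1
  obtain ⟨p, ⟨Z⟩⟩ := exists_alb D hA H P K
  exact exists_AQ_of h3 (hfg H h2) Z h4

namespace AQ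

variable {N : Subgroup Γ} {q : ℕ} (Z : AQ D N q) [Nonempty (D.cov Γ)]

theorem add : AddOn Z.H Z.lam := lam_add Z.eqv Z.LH

theorem conj (g : Γ) {h : Γ} (hh : h ∈ Z.H) : Z.lam (g * h * g⁻¹) = Z.L g (Z.lam h) :=
  lam_conj Z.eqv g (Z.LH h hh)

theorem eqvH {h : Γ} (hh : h ∈ Z.H) (e : D.cov Γ) : Z.a (h • e) = Z.a e + Z.lam h := by
  rw [Z.eqv, Z.LH h hh]; rfl

theorem toEqv : Uen.Eqv D Z.H Z.a (fun g => Z.L g) Z.lam :=
  ⟨Z.hol, Z.eqv, Z.LH, fin_of_disc Z.add Z.disc, Z.inj⟩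


theorem det (g : Γ) : ‖LinearMap.det (Z.L g : Cn q →ₗ[ℂ] Cn q)‖ = 1 := by
  have := Z.fi
  obtain ⟨k, h1, h2⟩ := (FI.of_finiteIndex Z.H).pow_mem (Subgroup.mem_top g)
  have h3 : ((Z.L g : Cn q →ₗ[ℂ] Cn q)) ^ k = 1 := by
    rw [← ContinuousLinearMap.toLinearMap_pow, ← map_pow, Z.LH _ h2]; rfl
  have h4 := congrArg (fun f => ‖LinearMap.det f‖) h3
  simp only [map_pow, map_one, norm_pow, norm_one] at h4
  exact (pow_eq_one_iff_of_nonneg (norm_nonneg _) h1.ne').1 h4

theorem sub' (P : Subgroup Γ) (hP : P ≤ N)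
    (h : ∀ t ∈ Submodule.span ℝ (Z.lam '' P), Complex.I • t ∈ Submodule.span ℝ (Z.lam '' P)) :
    ∀ g ∈ P, Z.lam g = 0 := fun g hg => Z.sub _ (image_mono hP) h _ ⟨g, hg, rfl⟩


theorem heis [T2Space X] [CompactSpace X] [Finite A.ι] (P : Part A) (K : Kah A)
    (hr : ∃ e, e ∉ Crit (D.atl Γ) univ Z.a) {H : Subgroup Γ} (h : FI H Z.H)
    (B : Cn q →L[ℝ] Cn q →L[ℝ] ℝ) (β : Γ → ℝ)
    (hβ : ∀ g ∈ H, ∀ h ∈ H, β (g * h) = β g + β h + B (Z.lam g) (Z.lam h)) (v w : Cn q) :
    B v w = B w v := by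
  have := Z.fi
  have := h.finiteIndex
  obtain ⟨e, he⟩ := hr
  obtain ⟨p, hp⟩ := (D.atl Γ).cover e
  exact Har.heis D P K H Z.hol (lam := fun g => Z.lam g) (fun g e => Z.eqvH (h.le g.2) e) B
    (β := fun g => β g) (fun g g' => hβ _ g.2 _ g'.2) hp (surj_of_not_crit (mem_univ e) he hp) v w

theorem reg [T2Space X] [CompactSpace X] [Finite A.ι] [ConnectedSpace (D.cov Γ)]
    (hN : NoForms D Z.H) :
    (∃ e, e ∉ Crit (D.atl Γ) univ Z.a) ∧ q ≤ n ∧ Function.Surjective Z.a :=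
  have := Z.fi
  Z.toEqv.ueno hN

end AQ

theorem setup [T2Space X] [CompactSpace X] [Finite A.ι] (D : MonD A Γ)
    [SimplyConnectedSpace (D.cov Γ)] (hA : GoodA A) (P : Part A) (K : Kah A)
    (hN : ∀ H : Subgroup Γ, H.Normal → H.FiniteIndex → NoForms D H) (N : Subgroup Γ) [N.Normal] :
    ∃ (q : ℕ) (Z : AQ D N q), ∃ e, e ∉ Crit (D.atl Γ) univ Z.a := by
  obtain ⟨q, ⟨Z⟩⟩ := exists_AQ D hA P K hN N
  exact ⟨q, Z, (Z.reg (hN _ Z.normal Z.fi)).1⟩

end

end Crest.Agent.X261.End
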