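import Crest.Agent.X261.B88.Bas
import Crest.Agent.X261.Rel.Stm
import Crest.Agent.X261.Sk.Defs
import Crest.Agent.X261.Uen.Main
import Crest.Agent.X261.Bog.Use
import Crest.Agent.X261.End.Set

-- ▼ part X261/B88/Main
section

/-!
# Row 261, B (helper88), file `Main`: the amenable half from its packages

* `stp`, `stp_fb` : the setup of REL; `relStmt_of : Rel.RelStmt → RelStmt`;
* `halfB_of`.
-/

set_option autoImplicit false
set_option linter.unusedSectionVars false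

open Set Filter Topology

namespace Crest.Agent.X261.B88

open Crest.Agent.R275.Geo Crest.Agent.R275.Core144
open Crest.Agent.R273.UCov_914
open Crest.Agent.R281.ThnM_280 (Crit)
open Crest.Agent.X261.Grp Crest.Agent.X261.End
open Crest.Agent.X261.Rel (Stp)

noncomputable section

variable {n : ℕ} {X : Type} [TopologicalSpace X] {A : Atl n X} {Γ : Type} [Group Γ]
  {D : MonD A Γ} {N : Subgroup Γ} {q : ℕ} (Z : AQ D N q)

theorem norm_det' (g : Γ) : ‖(Z.L g).det‖ = 1 := by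
  have := Z.fi
  obtain ⟨k, h1, h2⟩ := (FI.of_finiteIndex Z.H).pow_mem (Subgroup.mem_top g)
  have h3 : ((Z.L g : Cn q →ₗ[ℂ] Cn q)) ^ k = 1 := by
    rw [← ContinuousLinearMap.toLinearMap_pow, ← map_pow, Z.LH _ h2]; rfl
  have h4 := congrArg (fun f : Cn q →ₗ[ℂ] Cn q => ‖LinearMap.det f‖) h3
  simp only [map_pow, map_one, norm_pow, norm_one] at h4
  exact (pow_eq_one_iff_of_nonneg (norm_nonneg _) h1.ne').1 h4

/-- the setup of REL -/
def stp [Nonempty (D.cov Γ)] {M : Subgroup Γ} (hM : M ≤ MG Z) : Stp D q M where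
  al := Z.a
  L := Z.L
  lam := Z.lam
  hol := Z.hol
  eqv := Z.eqv
  det := norm_det' Z
  L_M g hg := Z.LH g (hM hg).1
  lam_M _ hg := ((mem_MG Z).1 (hM hg)).2

theorem stp_fb [CompactSpace X] [T2Space X] [Finite A.ι] [Nonempty (D.cov Γ)] {Z : AQ D N q}
    (h : Fb Z) {M : Subgroup Γ} (hM : FI M (MG Z)) : Nonempty (stp Z hM.le).Fb := by
  obtain ⟨O, h1, ⟨t, ht⟩, h2⟩ := h
  refine ⟨⟨O, h1, ?_, fun s hs => (h2 s hs).2.1,
    fun i v x hx hO => dW_ne Z hx ((h2 _ hO).2.2 _ rfl), fun s _ => ?_⟩⟩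
  · obtain ⟨e, he⟩ := (h2 t ht).1
    exact ⟨e, show Z.a e ∈ O from (show Z.a e = t from he) ▸ ht⟩
  · exact prop_fi Z hM (isCompact_singleton (x := s))

/-- the map onto the image in the quotient -/
def toQ (M N : Subgroup Γ) [N.Normal] : M →* M.map (QuotientGroup.mk' N) :=
  (QuotientGroup.mk' N).subgroupMap M

theorem toQ_surj (M N : Subgroup Γ) [N.Normal] : Function.Surjective (toQ M N) :=
  MonoidHom.subgroupMap_surjective _ _

theorem toQ_N {M N : Subgroup Γ} [N.Normal] {m : M} (h : (m : Γ) ∈ N) : toQ M N m = 1 :=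
  Subtype.ext ((QuotientGroup.eq_one_iff (m : Γ)).2 h)

theorem relStmt_of (hR : Rel.RelStmt) : RelStmt := by
  intro hF n X _ _ _ _ A _ hA P K Γ _ D hc N _ _ hAm q Z hT hb hI hV
  have : Group.FG (KG Z) := (Group.fg_iff_subgroup_fg _).2 (fg_KG hb)
  obtain ⟨a, ha⟩ := Rel.Act.exists_act (KG Z) (hAm.subgroup _)
  have hN : ∀ m : MG Z, (m : Γ) ∈ N → ∀ x, (a.comap (toQ (MG Z) N)).α m x = x := fun m hm x =>
    (congrArg (fun k => a.α k x) (toQ_N hm)).trans (a.α_one x)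
  obtain ⟨m⟩ := hF n X A hA P K Γ D hc N q Z hT (MG Z) inferInstance (FI.refl _) _ _ hN
  obtain ⟨b⟩ := stp_fb hb (FI.refl _)
  exact hR n X A Γ D hc q (MG Z) N (stp Z le_rfl) b _ _ m (ha.comap (toQ_surj _ _)) hN
    (amen_quot Z) (fun g hg => Z.LH g (Z.le hg)) (fun g hg h0 => (mem_MG Z).2 ⟨Z.le hg, h0⟩)
    (up_sub Z) hV

/-- **the amenable half** -/
theorem halfB_of (hS : SetupStmt) (hF : FibStmt) (hM : FamStmt) (hN : NIStmt) (hR : RelStmt)
    (hG : Gauss.GaussStmt) : Sk.HalfB := by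
  intro n X _ _ _ _ A _ hA P H hH h0 hB Γ _ D hc N _ hJ hAm p _ _ F h
  have K := R281.Kp_487.kah H hH
  have hc' : ConnectedSpace (D.cov Γ) := inferInstance
  obtain ⟨q, Z, hT⟩ := hS n X A hA P K h0 hB Γ D hc N
  have hb := hF n X A hA P K h0 hB Γ D hc' N q Z hT
  have hV := hN hM n X A hA P K Γ D hc' N hJ q Z hT hb
  have hI := infinite_KG Z hJ
  obtain ⟨W, _, _, _, Φ, ⟨U⟩, hfix⟩ := hR hM n X A hA P K Γ D hc' N hJ hAm q Z hT hb hI hV
  exact hG n X A Γ D hc' N hJ hAm (MG Z) (normal_KG Z) hI (fg_KG hb) hV q W Φ U hfix p F h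

end

end Crest.Agent.X261.B88
end

-- ▼ part X261/B88/Fib
section

/-!
# Row 261, B (helper88), file `Fib`: connected regular fibres from the induction of FIB
-/

set_option autoImplicit false
set_option linter.unusedSectionVars false

open Set Filter Topology

namespace Crest.Agent.X261.B88

open Crest.Agent.R275.Geo Crest.Agent.R275.Core144 Crest.Agent.R275.GC293
open Crest.Agent.R273.Defs_333 Crest.Agent.R273.Kah_333 Crest.Agent.R273.UCov_914
open Crest.Agent.X261.Grp Crest.Agent.X261.End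
open Crest.Agent.X261.Fib.Mn

variable {n : ℕ} {X : Type} [TopologicalSpace X] {A : Atl n X} {Γ : Type} [Group Γ]
  {D : MonD A Γ} {N : Subgroup Γ} {q : ℕ}

theorem fb_of [CompactSpace X] [T2Space X] [Finite A.ι] [PreconnectedSpace (D.cov Γ)]
    (Z : AQ D N q) (hT : Top Z) (h : Conn Z.a (LE Z) fun g => (Z.lam g).ofLp) : Fb Z := by
  obtain ⟨D1, h1, h2, -, h3, h4⟩ := h
  obtain ⟨t, ht⟩ := h2.dense_compl.nonempty
  refine ⟨(fun w : Cn q => w.ofLp) ⁻¹' D1ᶜ,
    h1.isOpen_compl.preimage (EuclideanSpace.equiv (Fin q) ℂ).continuous,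
    ⟨WithLp.toLp 2 t, ht⟩, fun s hs => ⟨surj_a Z hT s, ?_, fun e he => h3 e (he ▸ hs)⟩⟩
  convert h4 _ hs using 1
  ext e
  exact ⟨fun h => congrArg WithLp.ofLp h, fun h => congrArg (WithLp.toLp 2) h⟩

/-- the three inputs of the induction -/
def FibIn : Prop :=
  ∀ (n : ℕ) (X : Type) [TopologicalSpace X] [T2Space X] [CompactSpace X] [ConnectedSpace X]
    (A : Atl n X) [Finite A.ι], GoodA A → Part A → Kah A → E0.NoBog A → Bog.NoBog A →
    ∀ (Γ : Type) [Group Γ] (D : MonD A Γ), ConnectedSpace (D.cov Γ) →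
    ∀ (H : Subgroup Γ), H.Normal → H.FiniteIndex → Dich D ∧ NBig D H ∧ SepH D H

theorem fibStmt_of (h : FibIn) : FibStmt := by
  intro n X _ _ _ _ A _ hA P K h0 hB Γ _ D hc N q Z hT
  have := Z.fi
  obtain ⟨h1, h2, h3⟩ := h n X A hA P K h0 hB Γ D hc Z.H Z.normal Z.fi
  exact fb_of Z hT (conn_of h1 h2 h3 q _ _ _ (dat Z hT))

end Crest.Agent.X261.B88
end

-- ▼ part X261/Uen/Fin
section

/-!
X261 / Uen / Fin (helper80): norms over a finite index subgroup, `NoBog A → NoForms D H`, and the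
final form of Ueno's theorem.
-/

set_option autoImplicit false
set_option linter.unusedSectionVars false

open Set Filter Topology Metric Module
open scoped Matrix

noncomputable section

namespace Crest.Agent.X261.Uen

open Crest.Agent.R281.Thn_280 Crest.Agent.R281.ThnM_280 Crest.Agent.R281.Kd_22
open Crest.Agent.R275.Geo Crest.Agent.R275.Core144 Crest.Agent.R273.Fock_243
open Crest.Agent.R273.HolF_578 (Om)
open Crest.Agent.X261.Bog
open Crest.Agent.R273.UCov_914 Crest.Agent.R273.SteinC_794 Crest.Agent.R273.SteinD_794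

/-- finitely many continuous functions are nowhere zero or zero on a small open set -/
theorem exists_dich {M κ E : Type*} [TopologicalSpace M] [Finite κ] [NormedAddCommGroup E]
    {U : Set M} (hU : IsOpen U) (hne : U.Nonempty) (f : κ → M → E)
    (hf : ∀ k, ContinuousOn (f k) U) : ∃ V, IsOpen V ∧ V.Nonempty ∧ V ⊆ U ∧
      ∀ k, (∀ y ∈ V, f k y ≠ 0) ∨ ∀ y ∈ V, f k y = 0 := by
  classical
  have := Fintype.ofFinite κ
  suffices h : ∀ s : Finset κ, ∃ V, IsOpen V ∧ V.Nonempty ∧ V ⊆ U ∧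
      ∀ k ∈ s, (∀ y ∈ V, f k y ≠ 0) ∨ ∀ y ∈ V, f k y = 0 by
    obtain ⟨V, a, b, c, d⟩ := h Finset.univ
    exact ⟨V, a, b, c, fun k => d k (Finset.mem_univ k)⟩
  intro s
  induction s using Finset.induction_on with
  | empty => exact ⟨U, hU, hne, subset_rfl, by simp⟩
  | insert k s hk ih =>
    obtain ⟨V, a, b, c, d⟩ := ih
    by_cases h : ∀ y ∈ V, f k y = 0
    · refine ⟨V, a, b, c, fun j hj => ?_⟩
      rcases Finset.mem_insert.1 hj with rfl | hj
      exacts [Or.inr h, d j hj]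
    · push Not at h
      obtain ⟨y, hy, hy'⟩ := h
      refine ⟨V ∩ f k ⁻¹' {0}ᶜ, ((hf k).mono c).isOpen_inter_preimage a isOpen_compl_singleton,
        ⟨y, hy, hy'⟩, inter_subset_left.trans c, fun j hj => ?_⟩
      rcases Finset.mem_insert.1 hj with rfl | hj
      · exact Or.inl fun z hz => hz.2
      · exact (d j hj).imp (fun h z hz => h z hz.1) fun h z hz => h z hz.1

/-- residues of a logarithmic derivative -/
theorem res_zero {ι : Type*} [Fintype ι] [DecidableEq ι] (a d : ι → ℂ)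
    (h : ∀ t : ℂ, ∑ c, (∏ c' ∈ Finset.univ.erase c, (t - a c')) * d c = 0) (a₀ : ℂ) :
    ∑ c, (if a c = a₀ then d c else 0) = 0 := by
  have h1 : Tendsto (fun t => ∑ c, (t - a₀) / (t - a c) * d c) (𝓝[≠] a₀)
      (𝓝 (∑ c, if a c = a₀ then d c else 0)) := by
    refine tendsto_finsetSum _ fun c _ => ?_
    split_ifs with hc
    · refine tendsto_const_nhds.congr' ?_
      filter_upwards [self_mem_nhdsWithin] with t ht
      rw [hc, div_self (sub_ne_zero.2 ht), one_mul]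
    · have : ContinuousAt (fun t => (t - a₀) / (t - a c) * d c) a₀ :=
        (ContinuousAt.div (f := fun t => t - a₀) (g := fun t => t - a c)
          (continuousAt_id.sub continuousAt_const) (continuousAt_id.sub continuousAt_const)
          (sub_ne_zero.2 (Ne.symm hc))).mul continuousAt_const
      have h2 := this.tendsto.mono_left (nhdsWithin_le_nhds (s := {a₀}ᶜ))
      rwa [sub_self, zero_div, zero_mul] at h2
  have h3 : ∀ᶠ t in 𝓝[≠] a₀, ∀ c, t ≠ a c := eventually_all.2 fun c => by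
    by_cases hc : a c = a₀
    · rw [hc]; exact self_mem_nhdsWithin
    · exact mem_nhdsWithin_of_mem_nhds (eventually_ne_nhds (Ne.symm hc))
  refine tendsto_nhds_unique h1 (tendsto_const_nhds.congr' ?_)
  filter_upwards [h3] with t ht
  have h4 : ∑ c, (t - a₀) / (t - a c) * d c = (t - a₀) / (∏ c, (t - a c)) *
      ∑ c, (∏ c' ∈ Finset.univ.erase c, (t - a c')) * d c := by
    rw [Finset.mul_sum]
    refine Finset.sum_congr rfl fun c _ => ?_
    rw [← Finset.mul_prod_erase _ _ (Finset.mem_univ c)]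
    have h5 := sub_ne_zero.2 (ht c)
    have h6 : ∏ c' ∈ Finset.univ.erase c, (t - a c') ≠ 0 :=
      Finset.prod_ne_zero_iff.2 fun c _ => sub_ne_zero.2 (ht c)
    field_simp
  rw [h4, h, mul_zero]

theorem exists_indep' {κ V : Type} [NormedAddCommGroup V] [NormedSpace ℂ V]
    [FiniteDimensional ℂ V] (φ : κ → V →L[ℂ] ℂ) {p : ℕ} {ψ : Fin p → V →L[ℂ] ℂ}
    (hψ : LinearIndependent ℂ ψ) (h : ∀ a, (∀ k, φ k a = 0) → ∀ j, ψ j a = 0) :
    ∃ c : Fin p → κ, LinearIndependent ℂ fun k => φ (c k) := by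
  set ψ' : Fin p → Module.Dual ℂ V := fun k => (ψ k : V →ₗ[ℂ] ℂ) with hψ'
  have h1 : LinearIndependent ℂ ψ' := hψ.map' (ContinuousLinearMap.coeLM ℂ)
    (LinearMap.ker_eq_bot.2 ContinuousLinearMap.coe_injective)
  refine exists_indep φ (Submodule.span ℂ (range ψ')).dualCoannihilator ?_ fun a ha => ?_
  · have h2 := Subspace.finrank_add_finrank_dualCoannihilator_eq (Submodule.span ℂ (range ψ'))
    rwa [finrank_span_eq_card h1, Fintype.card_fin] at h2
  · refine (Submodule.mem_dualCoannihilator a).2 fun f hf => ?_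
    have h2 : Submodule.span ℂ (range ψ') ≤ LinearMap.ker (Module.Dual.eval ℂ V a) := by
      refine Submodule.span_le.2 ?_
      rintro _ ⟨j, rfl⟩
      exact h a ha j
    exact h2 hf

variable {n : ℕ} {X : Type} [TopologicalSpace X] {A : Atl n X} {p : ℕ}

/-- the norms of multivalued functions of rank `p` have rank `p` -/
theorem indep_norm {ι : Type} [Fintype ι] {U : Set X} (hU : IsOpen U) (hne : U.Nonempty)
    {i : A.ι} (hi : U ⊆ (A.e i).source) {u : Fin p → ι → X → ℂ}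
    (hu : ∀ k c, ∀ y ∈ U, Hm A (u k c) y) (c₀ : ι)
    (hli : ∀ y ∈ U, LinearIndependent ℂ fun k => df A i (u k c₀) y) :
    ∃ x ∈ U, ∃ κ : Fin p → Fin p × ℂ,
      LinearIndependent ℂ fun j => df A i (fun y => ∏ c, ((κ j).2 - u (κ j).1 c y)) x := by
  classical
  obtain ⟨V, hV, ⟨x, hx⟩, hVU, hd⟩ := exists_dich hU hne
    (fun (q : Fin p × ι) y => u q.1 q.2 y - u q.1 c₀ y) fun q y hy =>
      ((hu _ _ y hy).sub (hu _ _ y hy)).cont.continuousWithinAt
  have hxU := hVU hx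
  refine ⟨x, hxU, exists_indep' (fun q : Fin p × ℂ => df A i (fun y => ∏ c, (q.2 - u q.1 c y)) x)
    (hli x hxU) fun ξ hξ k => ?_⟩
  have h1 := res_zero (fun c => u k c x) (fun c => df A i (u k c) x ξ) (fun t => by
    have h2 : HasFDerivAt (fun w => ∏ c, (t - u k c ((A.e i).symm w))) _ (A.e i x) :=
      HasFDerivAt.finsetProd (u := Finset.univ) fun c _ =>
        (hu k c x hxU i (hi hxU)).differentiableAt.hasFDerivAt.const_sub t
    have h3 := hξ (k, t)
    unfold df at h3 ⊢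
    rw [h2.fderiv] at h3
    simp only [(A.e i).left_inv (hi hxU), sum_apply, smul_apply, smul_eq_mul,
      neg_apply, mul_neg, Finset.sum_neg_distrib, neg_eq_zero] at h3
    exact h3) (u k c₀ x)
  have h2 : ∀ c, (if u k c x = u k c₀ x then df A i (u k c) x ξ else 0) =
      (if u k c x = u k c₀ x then (1 : ℂ) else 0) * df A i (u k c₀) x ξ := by
    intro c
    split_ifs with hc
    · rw [one_mul, df_congr (g := u k c₀) (hi hxU)]
      filter_upwards [hV.mem_nhds hx] with y hy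
      exact sub_eq_zero.1 ((hd (k, c)).resolve_left (fun h => h x hx (sub_eq_zero.2 hc)) y hy)
    · rw [zero_mul]
  simp only [h2, ← Finset.sum_mul, Finset.sum_boole] at h1
  refine (mul_eq_zero.1 h1).resolve_left (Nat.cast_ne_zero.2 (Finset.card_ne_zero.2 ⟨c₀, ?_⟩))
  simp

variable {G : Type} [Group G] {D : MonD A G} {H : Subgroup G}

theorem om_hm {β : (D.atl G).ι → D.cov G → FI n → ℂ} (hβ : β ∈ Om (D.atl G) p) (v : G) {i : A.ι}
    {x : X} (hx : x ∈ (A.e i).source) (S : FI n) :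
    Hm A (fun y => β (i, v) (D.pt i v y) S) x :=
  hm_of_holAt (U := univ) (hβ.1 (i, v) S) isOpen_univ hx (mem_univ x)

theorem om_tr {β : (D.atl G).ι → D.cov G → FI n → ℂ} (hβ : β ∈ Om (D.atl G) p) (v : G)
    {i j : A.ι} {x : X} (hi : x ∈ (A.e i).source) (hj : x ∈ (A.e j).source) :
    tp A i j x (β (j, v) (D.pt j v x)) =
      β (i, D.c j i x * v) (D.pt i (D.c j i x * v) x) := by
  have h1 : D.pt j v x = D.pt i (D.c j i x * v) x := D.pt_eq v hj hi
  rw [hβ.2.2.2 (i, D.c j i x * v) (j, v) _ ⟨D.pt_mem_source (p := (i, D.c j i x * v)) hi,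
    h1 ▸ D.pt_mem_source (p := (j, v)) hj⟩, ← h1]
  rfl

theorem om_nf [PreconnectedSpace (D.cov G)] {β : (D.atl G).ι → D.cov G → FI n → ℂ}
    (hβ : β ∈ Om (D.atl G) p) (h0 : ∃ c, ∃ e ∈ ((D.atl G).e c).source, β c e ≠ 0) (v : G)
    {i : A.ι} {x : X} (hx : x ∈ (A.e i).source) :
    ¬ ∀ᶠ y in 𝓝 x, β (i, v) (D.pt i v y) = 0 := by
  have h1 : TOm (1 : LB (D.atl G)) p β := ⟨hβ.1, fun c e _ S hS => by_contra fun h =>
    hS (hβ.2.2.1 c e S h), fun c c' e he => by rw [hβ.2.2.2 c c' e he]; simp [tp]⟩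
  intro h
  refine h1.not_flat h0 (i, v) (D.pt_mem_source (p := (i, v)) hx) ?_
  filter_upwards [D.continuous_pr.continuousAt.eventually (show ∀ᶠ y in 𝓝 (D.pr (D.pt i v x)),
    β (i, v) (D.pt i v y) = 0 from h),
    (D.isOpen_sheet i v).mem_nhds (D.pt_mem_sheet v hx)] with e h2 h3
  rwa [D.pt_of_mem h3] at h2

/-- the line field on `X` of a form on the cover which is parallel to its translates -/
def lfCov [PreconnectedSpace (D.cov G)] {β : (D.atl G).ι → D.cov G → FI n → ℂ}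
    (hβ : β ∈ Om (D.atl G) p) (h0 : ∃ c, ∃ e ∈ ((D.atl G).e c).source, β c e ≠ 0)
    (hp : ∀ i v w, ∀ x ∈ (A.e i).source, Par (β (i, v) (D.pt i v x)) (β (i, w) (D.pt i w x))) :
    LF A p where
  κ := A.ι
  ch := id
  U i := (A.e i).source
  op i := (A.e i).open_source
  sub _ := subset_rfl
  cov := A.cover
  τ i x := β (i, 1) (D.pt i 1 x)
  hm _ _ hx S := om_hm hβ 1 hx S
  deg i x _ S hS := by_contra fun h => hS (hβ.2.2.1 _ _ S h)
  nf _ _ hx := om_nf hβ h0 1 hx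
  par i j x hx := by
    rw [id, id, om_tr hβ 1 hx.1 hx.2]
    exact hp i _ _ x hx.1

open Classical in
/-- the ratio of two parallel vectors -/
def rat {ι : Type*} (u v : ι → ℂ) : ℂ := if h : ∃ c : ℂ, u = c • v then h.choose else 0

theorem rat_spec {ι : Type*} {u v : ι → ℂ} (h : Par u v) (hv : v ≠ 0) : u = rat u v • v := by
  have h1 := h.exists_smul hv
  unfold rat
  rw [dif_pos h1]
  exact h1.choose_spec

theorem rat_eq {ι : Type*} {u v : ι → ℂ} {c : ℂ} (h : u = c • v) (hv : v ≠ 0) : rat u v = c :=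
  smul_left_injective ℂ hv ((rat_spec (h ▸ Bog.par_smul c v) hv).symm.trans h)

theorem out_inv {α : Type*} {f : G → α} (hf : ∀ h ∈ H, ∀ v, f (v * h⁻¹) = f v) {v w : G}
    (h : (v : G ⧸ H) = w) : f v = f w := by
  rw [← hf _ (QuotientGroup.eq.1 h) w]
  congr 1
  group

theorem sec_norm [PreconnectedSpace (D.cov G)] [Fintype (G ⧸ H)]
    {β γ : (D.atl G).ι → D.cov G → FI n → ℂ}
    (hβ : β ∈ Om (D.atl G) p) (h0 : ∃ c, ∃ e ∈ ((D.atl G).e c).source, β c e ≠ 0)
    (hp : ∀ i v w, ∀ x ∈ (A.e i).source, Par (β (i, v) (D.pt i v x)) (β (i, w) (D.pt i w x)))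
    (hγ : γ ∈ Om (D.atl G) p)
    (hH : ∀ h ∈ H, ∀ i v x, γ (i, v * h⁻¹) (D.pt i (v * h⁻¹) x) = γ (i, v) (D.pt i v x))
    (hq : ∀ i v, ∀ x ∈ (A.e i).source, Par (γ (i, v) (D.pt i v x)) (β (i, 1) (D.pt i 1 x))) :
    (lfCov hβ h0 hp).Sec (fun i => {x | x ∈ (A.e i).source ∧ β (i, 1) (D.pt i 1 x) ≠ 0})
      (Fintype.card (G ⧸ H)) fun i x =>
        ∏ c : G ⧸ H, rat (γ (i, c.out) (D.pt i c.out x)) (β (i, 1) (D.pt i 1 x)) := by
  refine ⟨fun (i : A.ι) x hx S => ⟨fun y => ∏ c : G ⧸ H, γ (i, c.out) (D.pt i c.out y) S,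
    hm_prod _ fun c _ => om_hm hγ _ hx S, Eventually.of_forall fun y hy => ?_⟩,
    fun (i : A.ι) (j : A.ι) x hx c hc => ?_⟩
  · change _ = _ * β (i, 1) (D.pt i 1 y) S ^ _
    rw [← Finset.card_univ, ← Finset.prod_const, ← Finset.prod_mul_distrib]
    exact Finset.prod_congr rfl fun c _ => congrFun (rat_spec (hq i c.out y hy.1) hy.2) S
  · have hc' : tp A i j x (β (j, 1) (D.pt j 1 x)) = c • β (i, 1) (D.pt i 1 x) := hc
    rw [← Finset.card_univ, ← Finset.prod_const, ← Finset.prod_mul_distrib]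
    symm
    refine Fintype.prod_equiv (MulAction.toPerm (D.c j i x)) _ _ fun d => ?_
    symm
    refine rat_eq ?_ hx.1.2
    rw [out_inv (f := fun v => γ (i, v) (D.pt i v x)) (fun h hh v => hH h hh i v x)
      (w := D.c j i x * d.out) (by
        rw [QuotientGroup.out_eq', ← smul_eq_mul, ← MulAction.Quotient.smul_mk,
          QuotientGroup.out_eq']; rfl),
      ← om_tr hγ _ hx.1.1 hx.2.1, rat_spec (hq j d.out x hx.2.1) hx.2.2, tp_smul, hc', smul_smul,
      mul_comm, rat_eq rfl hx.2.2]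

theorem noForms [PreconnectedSpace (D.cov G)] [H.FiniteIndex] (hN : NoBog A) : NoForms D H := by
  classical
  rintro p hp τ hτ hH hP ⟨i, v₀⟩ e₀ z he₀ h0 hz hli
  have := Fintype.ofFinite (G ⧸ H)
  have hx₀ : D.pr e₀ ∈ (A.e i).source := he₀.1
  obtain ⟨x₀, hx₀, rfl⟩ : ∃ x₀ ∈ (A.e i).source, e₀ = D.pt i v₀ x₀ :=
    ⟨_, he₀.1, (D.pt_of_mem he₀).symm⟩
  have h0' : ∃ c, ∃ e ∈ ((D.atl G).e c).source, τ 0 c e ≠ 0 := ⟨_, _, he₀, h0⟩
  set F := lfCov (hτ 0) h0' (hP 0 0) with hF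
  set r : Fin (p + 1) → G ⧸ H → X → ℂ := fun k c x =>
    rat (τ k (i, c.out) (D.pt i c.out x)) (τ 0 (i, 1) (D.pt i 1 x)) with hr
  have hz' : ∀ᶠ y in 𝓝 x₀, ∀ k, τ k.succ (i, v₀) (D.pt i v₀ y) =
      z k (D.pt i v₀ y) • τ 0 (i, v₀) (D.pt i v₀ y) :=
    ((D.continuousOn_pt i v₀).continuousAt ((A.e i).open_source.mem_nhds hx₀)).eventually hz
  have hzm : ∀ k, Hm A (fun y => z k (D.pt i v₀ y)) x₀ := by
    intro k
    obtain ⟨T, hT⟩ := Function.ne_iff.1 h0
    refine (hm_div (om_hm (hτ k.succ) v₀ hx₀ T) (om_hm (hτ 0) v₀ hx₀ T) hT).congr ?_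
    filter_upwards [hz', (om_hm (hτ 0) v₀ hx₀ T).ev_ne hT] with y h1 h2
    rw [h1 k, Pi.smul_apply, smul_eq_mul, mul_div_cancel_right₀ _ h2]
  have hli' : ∀ᶠ y in 𝓝 x₀, LinearIndependent ℂ fun k => df A i (fun y => z k (D.pt i v₀ y)) y :=
    li_ev (fun k => cont_df (hzm k) hx₀) hli
  obtain ⟨U, hU1, hUo, hUx⟩ := _root_.eventually_nhds_iff.1
    ((hz'.and hli').and ((A.e i).open_source.mem_nhds hx₀))
  obtain ⟨V, hV, hVne, hVU, hd⟩ := exists_dich hUo ⟨_, hUx⟩
    (fun (o : Option (G ⧸ H)) y => τ 0 (i, o.elim 1 Quotient.out) (D.pt i (o.elim 1 Quotient.out) y))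
    fun o y hy => (continuousAt_pi.2 fun S =>
      (om_hm (hτ 0) _ (hU1 y hy).2 S).cont).continuousWithinAt
  have hVi : V ⊆ (A.e i).source := fun y hy => (hU1 y (hVU hy)).2
  have hne : ∀ o : Option (G ⧸ H), ∀ y ∈ V,
      τ 0 (i, o.elim 1 Quotient.out) (D.pt i (o.elim 1 Quotient.out) y) ≠ 0 := by
    intro o
    refine (hd o).resolve_right fun h => ?_
    obtain ⟨y, hy⟩ := hVne
    exact om_nf (hτ 0) h0' _ (hVi hy) (by filter_upwards [hV.mem_nhds hy] with w hw using h w hw)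
  have h1 : ∀ y ∈ V, τ 0 (i, 1) (D.pt i 1 y) ≠ 0 := hne none
  have hrs : ∀ k c, ∀ y ∈ V, τ k (i, c.out) (D.pt i c.out y) = r k c y • τ 0 (i, 1) (D.pt i 1 y) :=
    fun k c y hy => rat_spec (hP k 0 i _ _ y (hVi hy)) (h1 y hy)
  have hr0 : ∀ c, ∀ y ∈ V, r 0 c y ≠ 0 := fun c y hy h => hne (some c) y hy (by
    change τ 0 (i, c.out) (D.pt i c.out y) = 0
    rw [hrs 0 c y hy, h, zero_smul])
  have hrm : ∀ k c, ∀ y ∈ V, Hm A (r k c) y := by
    intro k c y hy
    obtain ⟨T, hT⟩ := Function.ne_iff.1 (h1 y hy)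
    refine (hm_div (om_hm (hτ k) c.out (hVi hy) T) (om_hm (hτ 0) 1 (hVi hy) T) hT).congr ?_
    filter_upwards [hV.mem_nhds hy, (om_hm (hτ 0) 1 (hVi hy) T).ev_ne hT] with w h2 h3
    rw [hrs k c w h2, Pi.smul_apply, smul_eq_mul, mul_div_cancel_right₀ _ h3]
  have hout : ∀ k y, τ k (i, (v₀ : G ⧸ H).out) (D.pt i (v₀ : G ⧸ H).out y) =
      τ k (i, v₀) (D.pt i v₀ y) := fun k y =>
    out_inv (f := fun v => τ k (i, v) (D.pt i v y)) (fun h hh v => hH k h hh i v y)
      (QuotientGroup.out_eq' _)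
  obtain ⟨x, hx, κ, hκ⟩ := indep_norm hV hVne hVi (u := fun k c y => r k.succ c y / r 0 c y)
    (fun k c y hy => hm_div (hrm _ c y hy) (hrm 0 c y hy) (hr0 c y hy)) (v₀ : G ⧸ H) (by
      intro y hy
      convert (hU1 y (hVU hy)).1.2 using 2 with k
      refine df_congr (hVi hy) ?_
      filter_upwards [hV.mem_nhds hy] with w hw
      rw [div_eq_iff (hr0 _ w hw)]
      refine rat_eq ?_ (h1 w hw)
      rw [hout, (hU1 w (hVU hw)).1.1 k, ← hout 0, hrs 0 _ w hw, smul_smul])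
  set γ : Fin (p + 1) → (D.atl G).ι → D.cov G → FI n → ℂ :=
    Fin.cons (τ 0) fun j => (κ j).2 • τ 0 - τ (κ j).1.succ with hγ
  have hγs : ∀ (j : Fin p) i v e, γ j.succ (i, v) e =
      (κ j).2 • τ 0 (i, v) e - τ (κ j).1.succ (i, v) e := fun _ _ _ _ => rfl
  have hsec : ∀ k, F.Sec (fun i => {x | x ∈ (A.e i).source ∧ τ 0 (i, 1) (D.pt i 1 x) ≠ 0})
      (Fintype.card (G ⧸ H)) fun i x =>
        ∏ c : G ⧸ H, rat (γ k (i, c.out) (D.pt i c.out x)) (τ 0 (i, 1) (D.pt i 1 x)) := by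
    intro k
    induction k using Fin.cases with
    | zero => exact sec_norm _ _ _ (hτ 0) (hH 0) fun i v => hP 0 0 i v 1
    | succ j =>
      refine sec_norm _ _ _ (Submodule.sub_mem _ (Submodule.smul_mem _ _ (hτ 0)) (hτ _))
        (fun h hh i v x => ?_) fun i v x hx S T => ?_
      · rw [hγs, hγs, hH 0 h hh, hH _ h hh]
      · rw [hγs]
        simp only [Pi.sub_apply, Pi.smul_apply, smul_eq_mul, sub_mul, mul_assoc,
          hP 0 0 i v 1 x hx S T, hP _ 0 i v 1 x hx S T]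
  refine hN p hp F _ _ _ F.dom_ne hsec i x ⟨hVi hx, h1 x hx⟩
    (Finset.prod_ne_zero_iff.2 fun c _ => hr0 c x hx) ?_
  convert hκ using 2 with j
  refine df_congr (hVi hx) ?_
  filter_upwards [hV.mem_nhds hx] with y hy
  rw [← Finset.prod_div_distrib]
  refine Finset.prod_congr rfl fun c _ => ?_
  have h2 : rat (γ j.succ (i, c.out) (D.pt i c.out y)) (τ 0 (i, 1) (D.pt i 1 y)) =
      (κ j).2 * r 0 c y - r (κ j).1.succ c y := by
    refine rat_eq ?_ (h1 y hy)
    rw [hγs, hrs 0 c y hy, hrs (κ j).1.succ c y hy, smul_smul, sub_smul]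
  rw [h2]
  change _ / r 0 c y = _
  rw [sub_div, mul_div_cancel_right₀ _ (hr0 c y hy)]


end Crest.Agent.X261.Uen
end
end

-- ▼ part X261/End/Main

/-!
# X261 / END (helper31), file `Main`: B0 without hypotheses
-/

set_option autoImplicit false

open Set

namespace Crest.Agent.X261.End

open Crest.Agent.R275 Crest.Agent.R275.Geo Crest.Agent.R275.GC293 Crest.Agent.R273.Kah_333
open Crest.Agent.R273.Alb645 Crest.Agent.R273.UCov_914 Crest.Agent.R281.ThnM_280

/-- **B0** -/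
theorem setup' {n : ℕ} {X : Type} [TopologicalSpace X] {A : Atl n X} {Γ : Type} [Group Γ]
    [T2Space X] [CompactSpace X] [Finite A.ι] (D : MonD A Γ) [SimplyConnectedSpace (D.cov Γ)]
    (hA : GoodA A) (P : Part A) (K : Kah A) (hN : Bog.NoBog A) (N : Subgroup Γ) [N.Normal] :
    ∃ (q : ℕ) (Z : AQ D N q), ∃ e, e ∉ Crit (D.atl Γ) univ Z.a :=
  setup D hA P K (fun H _ _ => Uen.noForms hN) N

end Crest.Agent.X261.End
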